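import Mathlib

/-! P154: Bernstein certificates for the corners of the inverted triangle inequality. -/

namespace Vale.Agent.Potts.Inv

set_option linter.unusedVariables false

/-- corner polynomial ('p2', 's2') -/
noncomputable def P00 (p s : ℝ) : ℝ :=
  (31/20) + (31/20) * s^1 + (-2) * s^3 + 2 * p^1 + (-4) * p^1 * s^2 + 2 * p^1 * s^4 + (-2) * p^2 + (-4) * p^2 * s^1 + (-(53/20)) * p^2 * s^2 + (107/20) * p^2 * s^3 + 2 * p^3 * s^1 + 2 * p^3 * s^2 + (11/10) * p^3 * s^3 + (-(29/10)) * p^3 * s^4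

theorem P00n {p s u u' v v' : ℝ} (hu : p = u - 1 / 2) (hu' : u' = 3 / 4 - u) (hv : s = v - 1 / 2) (hv' : v' = 1 / 2 - v)
    (u0 : 0 ≤ u) (u1 : 0 ≤ u') (v0 : 0 ≤ v) (v1 : 0 ≤ v') : 0 ≤ P00 p s := by
  have key : P00 p s =
      (44/5) * (u' ^ 3 * v' ^ 4) +
      (224/15) * (u' ^ 3 * v ^ 1 * v' ^ 3) +
      (208/45) * (u' ^ 3 * v ^ 2 * v' ^ 2) +
      (256/135) * (u' ^ 3 * v ^ 3 * v' ^ 1) +
      (256/135) * (u' ^ 3 * v ^ 4) +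
      (394/5) * (u ^ 1 * u' ^ 2 * v' ^ 4) +
      (4252/15) * (u ^ 1 * u' ^ 2 * v ^ 1 * v' ^ 3) +
      (6944/15) * (u ^ 1 * u' ^ 2 * v ^ 2 * v' ^ 2) +
      (17216/45) * (u ^ 1 * u' ^ 2 * v ^ 3 * v' ^ 1) +
      (1792/15) * (u ^ 1 * u' ^ 2 * v ^ 4) +
      129 * (u ^ 2 * u' ^ 1 * v' ^ 4) +
      (1516/3) * (u ^ 2 * u' ^ 1 * v ^ 1 * v' ^ 3) +
      (12748/15) * (u ^ 2 * u' ^ 1 * v ^ 2 * v' ^ 2) +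
      (9952/15) * (u ^ 2 * u' ^ 1 * v ^ 3 * v' ^ 1) +
      (8576/45) * (u ^ 2 * u' ^ 1 * v ^ 4) +
      (459/10) * (u ^ 3 * v' ^ 4) +
      (1013/5) * (u ^ 3 * v ^ 1 * v' ^ 3) +
      (3164/9) * (u ^ 3 * v ^ 2 * v' ^ 2) +
      (36016/135) * (u ^ 3 * v ^ 3 * v' ^ 1) +
      (9856/135) * (u ^ 3 * v ^ 4) := by
    rw [P00, hu, hv, hu', hv']; ring
  rw [key]; positivity

theorem P00p {p s u u' v v' : ℝ} (hu : p = u - 1 / 2) (hu' : u' = 3 / 4 - u) (hv : s = v) (hv' : v' = 1 - v)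
    (u0 : 0 ≤ u) (u1 : 0 ≤ u') (v0 : 0 ≤ v) (v1 : 0 ≤ v') : 0 ≤ P00 p s := by
  have key : P00 p s =
      (16/135) * (u' ^ 3 * v' ^ 4) +
      (32/27) * (u' ^ 3 * v ^ 1 * v' ^ 3) +
      (244/45) * (u' ^ 3 * v ^ 2 * v' ^ 2) +
      (88/15) * (u' ^ 3 * v ^ 3 * v' ^ 1) +
      (112/15) * (u ^ 1 * u' ^ 2 * v' ^ 4) +
      (376/9) * (u ^ 1 * u' ^ 2 * v ^ 1 * v' ^ 3) +
      (1328/15) * (u ^ 1 * u' ^ 2 * v ^ 2 * v' ^ 2) +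
      (1018/15) * (u ^ 1 * u' ^ 2 * v ^ 3 * v' ^ 1) +
      (44/5) * (u ^ 1 * u' ^ 2 * v ^ 4) +
      (536/45) * (u ^ 2 * u' ^ 1 * v' ^ 4) +
      60 * (u ^ 2 * u' ^ 1 * v ^ 1 * v' ^ 3) +
      (1639/15) * (u ^ 2 * u' ^ 1 * v ^ 2 * v' ^ 2) +
      (208/3) * (u ^ 2 * u' ^ 1 * v ^ 3 * v' ^ 1) +
      (44/5) * (u ^ 2 * u' ^ 1 * v ^ 4) +
      (616/135) * (u ^ 3 * v' ^ 4) +
      (578/27) * (u ^ 3 * v ^ 1 * v' ^ 3) +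
      (1537/45) * (u ^ 3 * v ^ 2 * v' ^ 2) +
      (553/30) * (u ^ 3 * v ^ 3 * v' ^ 1) +
      (11/5) * (u ^ 3 * v ^ 4) := by
    rw [P00, hu, hv, hu', hv']; ring
  rw [key]; positivity

/-- corner polynomial ('p2', 'YU') -/
noncomputable def P01 (p s : ℝ) : ℝ :=
  (279/20) + (33/10) * s^1 + (-(261/20)) * s^2 + (-(1/5)) * s^3 + (-(49/5)) * s^4 + 8 * s^5 + 12 * p^1 + (-8) * p^1 * s^1 + (-24) * p^1 * s^2 + 16 * p^1 * s^3 + 12 * p^1 * s^4 + (-8) * p^1 * s^5 + (-(519/20)) * p^2 + (-(103/5)) * p^2 * s^1 + (573/20) * p^2 * s^2 + (193/10) * p^2 * s^3 + (-8) * p^2 * s^5 + (253/10) * p^3 * s^1 + (42/5) * p^3 * s^2 + (-(351/10)) * p^3 * s^3 + (-(11/5)) * p^3 * s^4 + 8 * p^3 * s^5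

theorem P01n {p s u u' v v' : ℝ} (hu : p = u - 1 / 2) (hu' : u' = 3 / 4 - u) (hv : s = v - 1 / 2) (hv' : v' = 1 / 2 - v)
    (u0 : 0 ≤ u) (u1 : 0 ≤ u') (v0 : 0 ≤ v) (v1 : 0 ≤ v') : 0 ≤ P01 p s := by
  have key : P01 p s =
      (704/5) * (u' ^ 3 * v' ^ 5) +
      (13552/15) * (u' ^ 3 * v ^ 1 * v' ^ 4) +
      (24272/15) * (u' ^ 3 * v ^ 2 * v' ^ 3) +
      (20384/15) * (u' ^ 3 * v ^ 3 * v' ^ 2) +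
      (8896/15) * (u' ^ 3 * v ^ 4 * v' ^ 1) +
      (1664/15) * (u' ^ 3 * v ^ 5) +
      (6304/5) * (u ^ 1 * u' ^ 2 * v' ^ 5) +
      (125896/15) * (u ^ 1 * u' ^ 2 * v ^ 1 * v' ^ 4) +
      19288 * (u ^ 1 * u' ^ 2 * v ^ 2 * v' ^ 3) +
      (107072/5) * (u ^ 1 * u' ^ 2 * v ^ 3 * v' ^ 2) +
      (175136/15) * (u ^ 1 * u' ^ 2 * v ^ 4 * v' ^ 1) +
      (37376/15) * (u ^ 1 * u' ^ 2 * v ^ 5) +
      2064 * (u ^ 2 * u' ^ 1 * v' ^ 5) +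
      (199364/15) * (u ^ 2 * u' ^ 1 * v ^ 1 * v' ^ 4) +
      (454108/15) * (u ^ 2 * u' ^ 1 * v ^ 2 * v' ^ 3) +
      (492712/15) * (u ^ 2 * u' ^ 1 * v ^ 3 * v' ^ 2) +
      (51856/3) * (u ^ 2 * u' ^ 1 * v ^ 4 * v' ^ 1) +
      (53152/15) * (u ^ 2 * u' ^ 1 * v ^ 5) +
      (3672/5) * (u ^ 3 * v' ^ 5) +
      (69902/15) * (u ^ 3 * v ^ 1 * v' ^ 4) +
      (52586/5) * (u ^ 3 * v ^ 2 * v' ^ 3) +
      11240 * (u ^ 3 * v ^ 3 * v' ^ 2) +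
      (86968/15) * (u ^ 3 * v ^ 4 * v' ^ 1) +
      (3488/3) * (u ^ 3 * v ^ 5) := by
    rw [P01, hu, hv, hu', hv']; ring
  rw [key]; positivity

theorem P01p {p s u u' v v' : ℝ} (hu : p = u - 1 / 2) (hu' : u' = 3 / 4 - u) (hv : s = v) (hv' : v' = 1 - v)
    (u0 : 0 ≤ u) (u1 : 0 ≤ u') (v0 : 0 ≤ v) (v1 : 0 ≤ v') : 0 ≤ P01 p s := by
  have key : P01 p s =
      (52/15) * (u' ^ 3 * v' ^ 5) +
      (224/15) * (u' ^ 3 * v ^ 1 * v' ^ 4) +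
      (556/15) * (u' ^ 3 * v ^ 2 * v' ^ 3) +
      (176/3) * (u' ^ 3 * v ^ 3 * v' ^ 2) +
      (176/15) * (u' ^ 3 * v ^ 4 * v' ^ 1) +
      (1168/15) * (u ^ 1 * u' ^ 2 * v' ^ 5) +
      (6574/15) * (u ^ 1 * u' ^ 2 * v ^ 1 * v' ^ 4) +
      928 * (u ^ 1 * u' ^ 2 * v ^ 2 * v' ^ 3) +
      (4438/5) * (u ^ 1 * u' ^ 2 * v ^ 3 * v' ^ 2) +
      (3944/15) * (u ^ 1 * u' ^ 2 * v ^ 4 * v' ^ 1) +
      (88/5) * (u ^ 1 * u' ^ 2 * v ^ 5) +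
      (1661/15) * (u ^ 2 * u' ^ 1 * v' ^ 5) +
      (1742/3) * (u ^ 2 * u' ^ 1 * v ^ 1 * v' ^ 4) +
      (16619/15) * (u ^ 2 * u' ^ 1 * v ^ 2 * v' ^ 3) +
      (14174/15) * (u ^ 2 * u' ^ 1 * v ^ 3 * v' ^ 2) +
      (3988/15) * (u ^ 2 * u' ^ 1 * v ^ 4 * v' ^ 1) +
      (88/5) * (u ^ 2 * u' ^ 1 * v ^ 5) +
      (109/3) * (u ^ 3 * v' ^ 5) +
      (5479/30) * (u ^ 3 * v ^ 1 * v' ^ 4) +
      (1633/5) * (u ^ 3 * v ^ 2 * v' ^ 3) +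
      (2579/10) * (u ^ 3 * v ^ 3 * v' ^ 2) +
      (206/3) * (u ^ 3 * v ^ 4 * v' ^ 1) +
      (22/5) * (u ^ 3 * v ^ 5) := by
    rw [P01, hu, hv, hu', hv']; ring
  rw [key]; positivity

/-- corner polynomial ('XU', 's2') -/
noncomputable def P10 (p s : ℝ) : ℝ :=
  (83/5) + (73/5) * s^1 + (-(53/20)) * s^2 + (-(373/20)) * s^3 + (244/5) * p^1 + (134/5) * p^1 * s^1 + (-46) * p^1 * s^2 + (-(309/10)) * p^1 * s^3 + (211/10) * p^1 * s^4 + 32 * p^2 + (-64) * p^2 * s^2 + 32 * p^2 * s^4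

theorem P10n {p s u u' v v' : ℝ} (hu : p = u - 1 / 2) (hu' : u' = 3 / 4 - u) (hv : s = v - 1 / 2) (hv' : v' = 1 / 2 - v)
    (u0 : 0 ≤ u) (u1 : 0 ≤ u') (v0 : 0 ≤ v) (v1 : 0 ≤ v') : 0 ≤ P10 p s := by
  have key : P10 p s =
      (132/5) * (u' ^ 2 * v' ^ 4) +
      (224/5) * (u' ^ 2 * v ^ 1 * v' ^ 3) +
      (208/15) * (u' ^ 2 * v ^ 2 * v' ^ 2) +
      (256/45) * (u' ^ 2 * v ^ 3 * v' ^ 1) +
      (256/45) * (u' ^ 2 * v ^ 4) +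
      (1446/5) * (u ^ 1 * u' ^ 1 * v' ^ 4) +
      940 * (u ^ 1 * u' ^ 1 * v ^ 1 * v' ^ 3) +
      (21248/15) * (u ^ 1 * u' ^ 1 * v ^ 2 * v' ^ 2) +
      (10432/9) * (u ^ 1 * u' ^ 1 * v ^ 3 * v' ^ 1) +
      (3328/9) * (u ^ 1 * u' ^ 1 * v ^ 4) +
      (2754/5) * (u ^ 2 * v' ^ 4) +
      (12156/5) * (u ^ 2 * v ^ 1 * v' ^ 3) +
      (12656/3) * (u ^ 2 * v ^ 2 * v' ^ 2) +
      (144064/45) * (u ^ 2 * v ^ 3 * v' ^ 1) +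
      (39424/45) * (u ^ 2 * v ^ 4) := by
    rw [P10, hu, hv, hu', hv']; ring
  rw [key]; positivity

theorem P10p {p s u u' v v' : ℝ} (hu : p = u - 1 / 2) (hu' : u' = 3 / 4 - u) (hv : s = v) (hv' : v' = 1 - v)
    (u0 : 0 ≤ u) (u1 : 0 ≤ u') (v0 : 0 ≤ v) (v1 : 0 ≤ v') : 0 ≤ P10 p s := by
  have key : P10 p s =
      (16/45) * (u' ^ 2 * v' ^ 4) +
      (32/9) * (u' ^ 2 * v ^ 1 * v' ^ 3) +
      (244/15) * (u' ^ 2 * v ^ 2 * v' ^ 2) +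
      (88/5) * (u' ^ 2 * v ^ 3 * v' ^ 1) +
      (208/9) * (u ^ 1 * u' ^ 1 * v' ^ 4) +
      (1192/9) * (u ^ 1 * u' ^ 1 * v ^ 1 * v' ^ 3) +
      (4472/15) * (u ^ 1 * u' ^ 1 * v ^ 2 * v' ^ 2) +
      (1194/5) * (u ^ 1 * u' ^ 1 * v ^ 3 * v' ^ 1) +
      (132/5) * (u ^ 1 * u' ^ 1 * v ^ 4) +
      (2464/45) * (u ^ 2 * v' ^ 4) +
      (2312/9) * (u ^ 2 * v ^ 1 * v' ^ 3) +
      (6148/15) * (u ^ 2 * v ^ 2 * v' ^ 2) +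
      (1106/5) * (u ^ 2 * v ^ 3 * v' ^ 1) +
      (132/5) * (u ^ 2 * v ^ 4) := by
    rw [P10, hu, hv, hu', hv']; ring
  rw [key]; positivity

/-- corner polynomial ('XU', 'YU') -/
noncomputable def P11 (p s : ℝ) : ℝ :=
  (2829/20) + 19 * s^1 + (-(2559/20)) * s^2 + (169/10) * s^3 + (-(588/5)) * s^4 + 88 * s^5 + (1836/5) * p^1 + (-(179/10)) * p^1 * s^1 + (-(2442/5)) * p^1 * s^2 + (1537/10) * p^1 * s^3 + (-15) * p^1 * s^4 + 40 * p^1 * s^5 + 192 * p^2 + (-128) * p^2 * s^1 + (-384) * p^2 * s^2 + 256 * p^2 * s^3 + 192 * p^2 * s^4 + (-128) * p^2 * s^5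

theorem P11n {p s u u' v v' : ℝ} (hu : p = u - 1 / 2) (hu' : u' = 3 / 4 - u) (hv : s = v - 1 / 2) (hv' : v' = 1 / 2 - v)
    (u0 : 0 ≤ u) (u1 : 0 ≤ u') (v0 : 0 ≤ v) (v1 : 0 ≤ v') : 0 ≤ P11 p s := by
  have key : P11 p s =
      (2112/5) * (u' ^ 2 * v' ^ 5) +
      (13552/5) * (u' ^ 2 * v ^ 1 * v' ^ 4) +
      (24272/5) * (u' ^ 2 * v ^ 2 * v' ^ 3) +
      (20384/5) * (u' ^ 2 * v ^ 3 * v' ^ 2) +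
      (8896/5) * (u' ^ 2 * v ^ 4 * v' ^ 1) +
      (1664/5) * (u' ^ 2 * v ^ 5) +
      (23136/5) * (u ^ 1 * u' ^ 1 * v' ^ 5) +
      30600 * (u ^ 1 * u' ^ 1 * v ^ 1 * v' ^ 4) +
      (337864/5) * (u ^ 1 * u' ^ 1 * v ^ 2 * v' ^ 3) +
      (361984/5) * (u ^ 1 * u' ^ 1 * v ^ 3 * v' ^ 2) +
      (192928/5) * (u ^ 1 * u' ^ 1 * v ^ 4 * v' ^ 1) +
      (40704/5) * (u ^ 1 * u' ^ 1 * v ^ 5) +
      (44064/5) * (u ^ 2 * v' ^ 5) +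
      (279608/5) * (u ^ 2 * v ^ 1 * v' ^ 4) +
      (631032/5) * (u ^ 2 * v ^ 2 * v' ^ 3) +
      134880 * (u ^ 2 * v ^ 3 * v' ^ 2) +
      (347872/5) * (u ^ 2 * v ^ 4 * v' ^ 1) +
      13952 * (u ^ 2 * v ^ 5) := by
    rw [P11, hu, hv, hu', hv']; ring
  rw [key]; positivity

theorem P11p {p s u u' v v' : ℝ} (hu : p = u - 1 / 2) (hu' : u' = 3 / 4 - u) (hv : s = v) (hv' : v' = 1 - v)
    (u0 : 0 ≤ u) (u1 : 0 ≤ u') (v0 : 0 ≤ v) (v1 : 0 ≤ v') : 0 ≤ P11 p s := by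
  have key : P11 p s =
      (52/5) * (u' ^ 2 * v' ^ 5) +
      (224/5) * (u' ^ 2 * v ^ 1 * v' ^ 4) +
      (556/5) * (u' ^ 2 * v ^ 2 * v' ^ 3) +
      176 * (u' ^ 2 * v ^ 3 * v' ^ 2) +
      (176/5) * (u' ^ 2 * v ^ 4 * v' ^ 1) +
      (1272/5) * (u ^ 1 * u' ^ 1 * v' ^ 5) +
      (7022/5) * (u ^ 1 * u' ^ 1 * v ^ 1 * v' ^ 4) +
      (15032/5) * (u ^ 1 * u' ^ 1 * v ^ 2 * v' ^ 3) +
      (15074/5) * (u ^ 1 * u' ^ 1 * v ^ 3 * v' ^ 2) +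
      (4296/5) * (u ^ 1 * u' ^ 1 * v ^ 4 * v' ^ 1) +
      (264/5) * (u ^ 1 * u' ^ 1 * v ^ 5) +
      436 * (u ^ 2 * v' ^ 5) +
      (10958/5) * (u ^ 2 * v ^ 1 * v' ^ 4) +
      (19596/5) * (u ^ 2 * v ^ 2 * v' ^ 3) +
      (15474/5) * (u ^ 2 * v ^ 3 * v' ^ 2) +
      824 * (u ^ 2 * v ^ 4 * v' ^ 1) +
      (264/5) * (u ^ 2 * v ^ 5) := by
    rw [P11, hu, hv, hu', hv']; ring
  rw [key]; positivity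

end Vale.Agent.Potts.Inv
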