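import Mathlib
import Vale.Agent.Potts.KS
import Vale.Agent.Potts.PartA2

/-! P154: the classical two-state comparison bound (Mossel-Peres): nonreconstruction on the
`d`-ary tree when `3 * d * lam ^ 2 ≤ 2 + lam`. -/

namespace Vale.Agent.Potts.MP

open Finset Filter Vale.Agent.Potts.KS

/-- harmonic-type mean -/
noncomputable def hh (u v : ℝ) : ℝ := 4 * (u * v) / (u + v)

theorem hh_nonneg {u v : ℝ} (hu : 0 ≤ u) (hv : 0 ≤ v) : 0 ≤ hh u v := by
  unfold hh
  positivity

theorem hh_swap {a a' b b' : ℝ} (ha : 0 ≤ a) (ha' : 0 ≤ a') (hb : 0 ≤ b) (hb' : 0 ≤ b') :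
    hh a a' * hh b b' ≤ hh (a * b) (a' * b') + hh (a' * b) (a * b') := by
  rcases (mul_nonneg ha ha').eq_or_lt with h | h
  · have h1 : hh a a' = 0 := by unfold hh; rw [← h]; simp
    rw [h1, zero_mul]
    exact add_nonneg (hh_nonneg (mul_nonneg ha hb) (mul_nonneg ha' hb'))
      (hh_nonneg (mul_nonneg ha' hb) (mul_nonneg ha hb'))
  rcases (mul_nonneg hb hb').eq_or_lt with h' | h'
  · have h1 : hh b b' = 0 := by unfold hh; rw [← h']; simp
    rw [h1, mul_zero]
    exact add_nonneg (hh_nonneg (mul_nonneg ha hb) (mul_nonneg ha' hb'))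
      (hh_nonneg (mul_nonneg ha' hb) (mul_nonneg ha hb'))
  have pa : 0 < a := lt_of_le_of_ne ha (by rintro rfl; simp at h)
  have pa' : 0 < a' := lt_of_le_of_ne ha' (by rintro rfl; simp at h)
  have pb : 0 < b := lt_of_le_of_ne hb (by rintro rfl; simp at h')
  have pb' : 0 < b' := lt_of_le_of_ne hb' (by rintro rfl; simp at h')
  have hP : 0 < a * b + a' * b' := by positivity
  have hQ : 0 < a' * b + a * b' := by positivity
  have e : hh (a * b) (a' * b') + hh (a' * b) (a * b') - hh a a' * hh b b' =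
      4 * (a * a' * (b * b')) * ((a * b + a' * b') - (a' * b + a * b')) ^ 2 /
        ((a * b + a' * b') * (a' * b + a * b') * ((a + a') * (b + b'))) := by
    unfold hh
    field_simp
    ring
  have : 0 ≤ 4 * (a * a' * (b * b')) * ((a * b + a' * b') - (a' * b + a * b')) ^ 2 /
        ((a * b + a' * b') * (a' * b + a * b') * ((a + a') * (b + b'))) := by positivity
  linarith

/-- `k`-fold product of a symmetric two-state family -/
theorem prod_ge {α : Type} [Fintype α] (u v : α → ℝ) (hu : ∀ c, 0 ≤ u c) (hv : ∀ c, 0 ≤ v c)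
    (σ : α ≃ α) (h1 : ∀ c, u (σ c) = v c) (h2 : ∀ c, v (σ c) = u c) {Z : ℝ} (hZ0 : 0 ≤ Z)
    (hZ : 2 * Z ≤ ∑ c, hh (u c) (v c)) (k : ℕ) :
    2 * Z ^ k ≤ ∑ c : Fin k → α, hh (∏ j, u (c j)) (∏ j, v (c j)) := by
  induction k with
  | zero => simp [hh]; norm_num
  | succ k ih =>
    rw [KS.sum_cons]
    have e1 : ∑ a : α, ∑ c : Fin k → α, hh (∏ j, u ((Fin.cons a c : Fin (k + 1) → α) j))
        (∏ j, v ((Fin.cons a c : Fin (k + 1) → α) j)) =
        ∑ a : α, ∑ c : Fin k → α, hh (u a * ∏ j, u (c j)) (v a * ∏ j, v (c j)) := by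
      refine Finset.sum_congr rfl fun a _ => Finset.sum_congr rfl fun c _ => ?_
      simp only [Fin.prod_univ_succ, Fin.cons_zero, Fin.cons_succ]
    have e2 : ∑ a : α, ∑ c : Fin k → α, hh (u a * ∏ j, u (c j)) (v a * ∏ j, v (c j)) =
        ∑ a : α, ∑ c : Fin k → α, hh (v a * ∏ j, u (c j)) (u a * ∏ j, v (c j)) := by
      rw [← Equiv.sum_comp σ]
      simp only [h1, h2]
    have e3 : (∑ a, hh (u a) (v a)) * (∑ c : Fin k → α, hh (∏ j, u (c j)) (∏ j, v (c j))) ≤
        ∑ a : α, ∑ c : Fin k → α, hh (u a * ∏ j, u (c j)) (v a * ∏ j, v (c j)) +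
        ∑ a : α, ∑ c : Fin k → α, hh (v a * ∏ j, u (c j)) (u a * ∏ j, v (c j)) := by
      rw [Finset.sum_mul_sum, ← Finset.sum_add_distrib]
      refine Finset.sum_le_sum fun a _ => ?_
      rw [← Finset.sum_add_distrib]
      refine Finset.sum_le_sum fun c _ => ?_
      exact hh_swap (hu a) (hv a) (Finset.prod_nonneg fun j _ => hu _)
        (Finset.prod_nonneg fun j _ => hv _)
    rw [e1]
    rw [← e2] at e3
    have e4 : (2 * Z) * (2 * Z ^ k) ≤
        (∑ a, hh (u a) (v a)) * (∑ c : Fin k → α, hh (∏ j, u (c j)) (∏ j, v (c j))) :=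
      mul_le_mul hZ ih (by positivity) (le_trans (by positivity) hZ)
    rw [pow_succ]
    linarith

/-! ### relabelling of the spins -/

/-- relabelling of the spins of a configuration -/
def rel (d : ℕ) (π : Equiv.Perm (Fin 3)) : (n : ℕ) → Conf 3 d n ≃ Conf 3 d n
  | 0 => π
  | n + 1 => Equiv.piCongrRight fun _ => rel d π n

variable {d : ℕ} {lam : ℝ}

theorem channel_rel (π : Equiv.Perm (Fin 3)) (i j : Fin 3) :
    channel 3 lam (π i) (π j) = channel 3 lam i j := by
  simp only [channel, EmbeddingLike.apply_eq_iff_eq]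

theorem leaf_rel (π : Equiv.Perm (Fin 3)) (n : ℕ) : ∀ (i : Fin 3) (c : Conf 3 d n),
    leafLaw 3 d lam n (π i) (rel d π n c) = leafLaw 3 d lam n i c := by
  induction n with
  | zero =>
    intro i c
    have key : ∀ x : Fin 3, (if π x = π i then (1 : ℝ) else 0) = if x = i then 1 else 0 := by
      intro x
      simp only [EmbeddingLike.apply_eq_iff_eq]
    exact key c
  | succ n ih =>
    intro i c
    simp only [leafLaw]
    refine Finset.prod_congr rfl fun k _ => ?_
    rw [← Equiv.sum_comp π]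
    refine Finset.sum_congr rfl fun j _ => ?_
    rw [channel_rel]
    congr 1
    exact ih j (c k)

theorem mu_rel (π : Equiv.Perm (Fin 3)) (n : ℕ) (i : Fin 3) (c : Conf 3 d n) :
    mu d lam n (π i) (rel d π n c) = mu d lam n i c := by
  unfold mu
  rw [← Equiv.sum_comp π]
  refine Finset.sum_congr rfl fun j _ => ?_
  rw [channel_rel, leaf_rel]

/-! ### the functional -/

/-- twice the overlap between the laws given root spins `i` and `j` -/
noncomputable def YY (d : ℕ) (lam : ℝ) (n : ℕ) (i j : Fin 3) : ℝ :=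
  ∑ c, hh (leafLaw 3 d lam n i c) (leafLaw 3 d lam n j c)

theorem hh_eq {u v : ℝ} (h : 0 ≤ u) (h' : 0 ≤ v) : hh u v = (u + v) - (u - v) ^ 2 / (u + v) := by
  rcases (add_nonneg h h').eq_or_lt with h1 | h1
  · have a : u = 0 := by linarith
    have b : v = 0 := by linarith
    simp [hh, a, b]
  · unfold hh
    field_simp
    ring

theorem mu_nonneg (h0 : -(1 / 2) ≤ lam) (h1 : lam ≤ 1) (n : ℕ) (i : Fin 3) (c : Conf 3 d n) :
    0 ≤ mu d lam n i c :=
  Finset.sum_nonneg fun j _ => mul_nonneg (channel_nonneg h0 h1 i j) (leaf_nonneg h0 h1 n j c)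

theorem mu_one (n : ℕ) (i : Fin 3) : ∑ c, mu d lam n i c = 1 := by
  have := mu_lin d lam n i (fun _ => 1)
  simp only [mul_one, leaf_one, channel_one] at this
  exact this

theorem mu_eq (n : ℕ) (i : Fin 3) (c : Conf 3 d n) : mu d lam n i c =
    lam * leafLaw 3 d lam n i c + (1 - lam) / 3 *
      (leafLaw 3 d lam n 0 c + leafLaw 3 d lam n 1 c + leafLaw 3 d lam n 2 c) := by
  unfold mu
  have h : ∀ j, channel 3 lam i j * leafLaw 3 d lam n j c =
      (if i = j then lam * leafLaw 3 d lam n j c else 0) +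
        (1 - lam) / 3 * leafLaw 3 d lam n j c := by
    intro j
    simp only [channel]
    split_ifs <;> push_cast <;> ring
  simp only [h, Finset.sum_add_distrib, Finset.sum_ite_eq, Finset.mem_univ, if_true,
    ← Finset.mul_sum, Fin.sum_univ_three]

/-- channel step -/
theorem mu_YY (h0 : -(1 / 2) ≤ lam) (h1 : lam ≤ 1) (n : ℕ) (i j : Fin 3) (hij : i ≠ j) :
    2 - 3 * lam ^ 2 / (2 + lam) * (2 - YY d lam n i j) ≤
      ∑ c, hh (mu d lam n i c) (mu d lam n j c) := by
  have hl := leaf_nonneg (d := d) h0 h1 n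
  have hm := mu_nonneg (d := d) h0 h1 n
  have e1 : ∑ c, hh (mu d lam n i c) (mu d lam n j c) = 2 -
      ∑ c, (mu d lam n i c - mu d lam n j c) ^ 2 / (mu d lam n i c + mu d lam n j c) := by
    simp only [hh_eq (hm _ _) (hm _ _), Finset.sum_sub_distrib, Finset.sum_add_distrib, mu_one]
    norm_num
  have e2 : YY d lam n i j = 2 - ∑ c, (leafLaw 3 d lam n i c - leafLaw 3 d lam n j c) ^ 2 /
      (leafLaw 3 d lam n i c + leafLaw 3 d lam n j c) := by
    unfold YY
    simp only [hh_eq (hl _ _) (hl _ _), Finset.sum_sub_distrib, Finset.sum_add_distrib, leaf_one]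
    norm_num
  rw [e1, e2]
  have e3 : ∀ c, (mu d lam n i c - mu d lam n j c) ^ 2 / (mu d lam n i c + mu d lam n j c) ≤
      3 * lam ^ 2 / (2 + lam) * ((leafLaw 3 d lam n i c - leafLaw 3 d lam n j c) ^ 2 /
      (leafLaw 3 d lam n i c + leafLaw 3 d lam n j c)) := by
    intro c
    rw [mu_eq, mu_eq]
    have a0 := hl 0 c
    have a1 := hl 1 c
    have a2 := hl 2 c
    have ai := hl i c
    have aj := hl j c
    have hS : leafLaw 3 d lam n i c + leafLaw 3 d lam n j c ≤
        leafLaw 3 d lam n 0 c + leafLaw 3 d lam n 1 c + leafLaw 3 d lam n 2 c := by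
      fin_cases i <;> fin_cases j <;> simp at hij ⊢ <;> linarith
    set S := leafLaw 3 d lam n 0 c + leafLaw 3 d lam n 1 c + leafLaw 3 d lam n 2 c with hSd
    set u := leafLaw 3 d lam n i c
    set v := leafLaw 3 d lam n j c
    have e4 : lam * u + (1 - lam) / 3 * S - (lam * v + (1 - lam) / 3 * S) = lam * (u - v) := by
      ring
    rw [e4]
    rcases (add_nonneg ai aj).eq_or_lt with h | h
    · have a : u = 0 := by linarith
      have b : v = 0 := by linarith
      rw [a, b]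
      simp
    · have h5 : (2 + lam) / 3 * (u + v) ≤
          lam * u + (1 - lam) / 3 * S + (lam * v + (1 - lam) / 3 * S) := by
        have : (1 - lam) / 3 * (u + v) ≤ (1 - lam) / 3 * S :=
          mul_le_mul_of_nonneg_left hS (by linarith)
        linarith
      have h6 : 0 < (2 + lam) / 3 * (u + v) := mul_pos (by linarith) h
      calc (lam * (u - v)) ^ 2 / (lam * u + (1 - lam) / 3 * S + (lam * v + (1 - lam) / 3 * S))
          ≤ (lam * (u - v)) ^ 2 / ((2 + lam) / 3 * (u + v)) :=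
            div_le_div_of_nonneg_left (sq_nonneg _) h6 h5
        _ = 3 * lam ^ 2 / (2 + lam) * ((u - v) ^ 2 / (u + v)) := by
            have : 2 + lam ≠ 0 := by linarith
            have := h.ne'
            field_simp
  have e5 := Finset.sum_le_sum fun c (_ : c ∈ Finset.univ) => e3 c
  rw [← Finset.mul_sum] at e5
  linarith

theorem YY_le (h0 : -(1 / 2) ≤ lam) (h1 : lam ≤ 1) (n : ℕ) (i j : Fin 3) :
    YY d lam n i j ≤ 2 := by
  have hl := leaf_nonneg (d := d) h0 h1 n
  have e2 : YY d lam n i j = 2 - ∑ c, (leafLaw 3 d lam n i c - leafLaw 3 d lam n j c) ^ 2 /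
      (leafLaw 3 d lam n i c + leafLaw 3 d lam n j c) := by
    unfold YY
    simp only [hh_eq (hl _ _) (hl _ _), Finset.sum_sub_distrib, Finset.sum_add_distrib, leaf_one]
    norm_num
  have : 0 ≤ ∑ c, (leafLaw 3 d lam n i c - leafLaw 3 d lam n j c) ^ 2 /
      (leafLaw 3 d lam n i c + leafLaw 3 d lam n j c) :=
    Finset.sum_nonneg fun c _ => div_nonneg (sq_nonneg _) (add_nonneg (hl _ _) (hl _ _))
  linarith

theorem YY_nonneg (h0 : -(1 / 2) ≤ lam) (h1 : lam ≤ 1) (n : ℕ) (i j : Fin 3) :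
    0 ≤ YY d lam n i j :=
  Finset.sum_nonneg fun c _ => hh_nonneg (leaf_nonneg h0 h1 n i c) (leaf_nonneg h0 h1 n j c)

/-- the recursion -/
theorem YY_succ (h0 : -(1 / 2) ≤ lam) (h1 : lam ≤ 1) (hk : 3 * lam ^ 2 / (2 + lam) ≤ 1) (n : ℕ)
    (i j : Fin 3) (hij : i ≠ j) :
    2 * (1 - 3 * lam ^ 2 / (2 + lam) * (1 - YY d lam n i j / 2)) ^ d ≤ YY d lam (n + 1) i j := by
  have hY := YY_le (d := d) h0 h1 n i j
  have hY0 := YY_nonneg (d := d) h0 h1 n i j
  have hk0 : 0 ≤ 3 * lam ^ 2 / (2 + lam) := div_nonneg (by positivity) (by linarith)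
  have hZ0 : 0 ≤ 1 - 3 * lam ^ 2 / (2 + lam) * (1 - YY d lam n i j / 2) := by
    have : 3 * lam ^ 2 / (2 + lam) * (1 - YY d lam n i j / 2) ≤ 1 * 1 :=
      mul_le_mul hk (by linarith) (by linarith) zero_le_one
    linarith
  have h3 := mu_YY (d := d) h0 h1 n i j hij
  have h4 := prod_ge (mu d lam n i) (mu d lam n j) (mu_nonneg h0 h1 n i) (mu_nonneg h0 h1 n j)
    (rel d (Equiv.swap i j) n)
    (fun c => by
      have := mu_rel (d := d) (lam := lam) (Equiv.swap i j) n j c
      rwa [Equiv.swap_apply_right] at this)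
    (fun c => by
      have := mu_rel (d := d) (lam := lam) (Equiv.swap i j) n i c
      rwa [Equiv.swap_apply_left] at this)
    hZ0 (by linarith) d
  unfold YY
  rw [sum_succ]
  exact h4

/-- the two-state distances tend to zero -/
theorem tendsto_YY (h0 : -(1 / 2) ≤ lam) (h1 : lam ≤ 1) (hd : 2 ≤ d)
    (h : 3 * (d * lam ^ 2) ≤ 2 + lam) (i j : Fin 3) (hij : i ≠ j) :
    Tendsto (fun n => 1 - YY d lam n i j / 2) atTop (nhds 0) := by
  have hdR : (2 : ℝ) ≤ d := by exact_mod_cast hd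
  have h2l : 0 < 2 + lam := by linarith
  set κ := 3 * lam ^ 2 / (2 + lam) with hκ
  have hk0 : 0 ≤ κ := div_nonneg (by positivity) h2l.le
  have hdk : d * κ ≤ 1 := by
    rw [hκ, ← mul_div_assoc, div_le_one h2l]
    linarith
  have hk1 : κ ≤ 1 := by nlinarith
  refine rec_tendsto (s := d) (l := κ) (t := (d : ℝ) - 1) (by linarith) hdk
    (fun n => by have := YY_le (d := d) h0 h1 n i j; linarith) (fun n => ?_)
  have h3 := YY_succ (d := d) h0 h1 hk1 n i j hij
  have hY := YY_le (d := d) h0 h1 n i j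
  have hY0 := YY_nonneg (d := d) h0 h1 n i j
  obtain ⟨x, hx⟩ : ∃ x, x = κ * (1 - YY d lam n i j / 2) := ⟨_, rfl⟩
  rw [← hκ, ← hx] at h3
  rw [← hx]
  have hx0 : 0 ≤ x := by rw [hx]; exact mul_nonneg hk0 (by linarith)
  have hx1 : x ≤ 1 := by
    rw [hx]
    have : κ * (1 - YY d lam n i j / 2) ≤ 1 * 1 :=
      mul_le_mul hk1 (by linarith) (by linarith) zero_le_one
    linarith
  obtain ⟨e, rfl⟩ : ∃ e, d = e + 1 := ⟨d - 1, by omega⟩
  have h7 := one_add_mul_le_pow (show (-2 : ℝ) ≤ -x by linarith) e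
  have h8 : (1 - x) * (1 + e * -x) ≤ (1 - x) * (1 + -x) ^ e :=
    mul_le_mul_of_nonneg_left h7 (by linarith)
  have h9 : (1 - x) * (1 + -x) ^ e = (1 - x) ^ (e + 1) := by
    rw [← sub_eq_add_neg, pow_succ]; ring
  push_cast
  rw [h9] at h8
  nlinarith

theorem abs_le_hh {u v η : ℝ} (hu : 0 ≤ u) (hv : 0 ≤ v) (hη : 0 < η) :
    |u - v| ≤ η * (u + v) / 2 + (u + v - hh u v) / (2 * η) := by
  rw [hh_eq hu hv]
  rcases (add_nonneg hu hv).eq_or_lt with h | h
  · have a : u = 0 := by linarith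
    have b : v = 0 := by linarith
    simp [a, b]
  · have e : η * (u + v) / 2 + (u + v - (u + v - (u - v) ^ 2 / (u + v))) / (2 * η) - |u - v| =
        (η * (u + v) - |u - v|) ^ 2 / (2 * η * (u + v)) := by
      have h2 : (u - v) ^ 2 = |u - v| ^ 2 := (sq_abs _).symm
      rw [h2]
      field_simp
      ring
    have : 0 ≤ (η * (u + v) - |u - v|) ^ 2 / (2 * η * (u + v)) := by positivity
    linarith

theorem sum_abs_le (h0 : -(1 / 2) ≤ lam) (h1 : lam ≤ 1) (n : ℕ) (i j : Fin 3) {η : ℝ}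
    (hη : 0 < η) : ∑ c, |leafLaw 3 d lam n i c - leafLaw 3 d lam n j c| ≤
      η + (1 - YY d lam n i j / 2) / η := by
  have hl := leaf_nonneg (d := d) h0 h1 n
  refine le_trans (Finset.sum_le_sum fun c _ => abs_le_hh (hl i c) (hl j c) hη) (le_of_eq ?_)
  rw [Finset.sum_add_distrib, ← Finset.sum_div, ← Finset.sum_div, ← Finset.mul_sum,
    Finset.sum_sub_distrib, Finset.sum_add_distrib, leaf_one, leaf_one]
  change _ + (1 + 1 - YY d lam n i j) / (2 * η) = _
  field_simp
  ring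

/-- bound of `a_n` by the three two-state distances -/
theorem aSeq_le_pairs (h0 : -(1 / 2) ≤ lam) (h1 : lam ≤ 1) (n : ℕ) :
    aSeq 3 d lam n ≤ ∑ c, (|leafLaw 3 d lam n 0 c - leafLaw 3 d lam n 1 c| +
      |leafLaw 3 d lam n 0 c - leafLaw 3 d lam n 2 c| +
      |leafLaw 3 d lam n 1 c - leafLaw 3 d lam n 2 c|) := by
  have hl := leaf_nonneg (d := d) h0 h1 n
  unfold aSeq
  refine Finset.sum_le_sum fun c _ => ?_
  have a0 := hl 0 c
  have a1 := hl 1 c
  have a2 := hl 2 c
  have hp : 0 ≤ confProb 3 d lam n c := by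
    rw [conf_eq]
    linarith
  have hk : ∀ i, confProb 3 d lam n c * |posterior 3 d lam n i c - 1 / ((3 : ℕ) : ℝ)| ≤
      |leafLaw 3 d lam n i c - confProb 3 d lam n c| / 3 := by
    intro i
    rcases hp.eq_or_lt with h | h
    · rw [← h, zero_mul]
      positivity
    · have h5 : leafLaw 3 d lam n i c - confProb 3 d lam n c =
          3 * confProb 3 d lam n c * (posterior 3 d lam n i c - 1 / ((3 : ℕ) : ℝ)) := by
        unfold posterior
        have := h.ne'
        push_cast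
        field_simp
      rw [h5, abs_mul, abs_of_pos (by positivity : 0 < 3 * confProb 3 d lam n c)]
      apply le_of_eq
      ring
  have h6 : confProb 3 d lam n c * ((1 / 2) * ∑ i : Fin 3,
      |posterior 3 d lam n i c - 1 / ((3 : ℕ) : ℝ)|) ≤
      (1 / 2) * ∑ i : Fin 3, |leafLaw 3 d lam n i c - confProb 3 d lam n c| / 3 := by
    rw [← mul_assoc, mul_comm (confProb 3 d lam n c) (1 / 2), mul_assoc, Finset.mul_sum]
    exact mul_le_mul_of_nonneg_left (Finset.sum_le_sum fun i _ => hk i) (by norm_num)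
  refine le_trans h6 ?_
  rw [Fin.sum_univ_three, conf_eq]
  generalize leafLaw 3 d lam n 0 c = u at *
  generalize leafLaw 3 d lam n 1 c = v at *
  generalize leafLaw 3 d lam n 2 c = w at *
  have b0 : |u - (u + v + w) / 3| ≤ |u - v| + |u - w| := by
    have : u - (u + v + w) / 3 = (1 / 3) * (u - v) + (1 / 3) * (u - w) := by ring
    rw [this]
    refine (abs_add_le _ _).trans ?_
    rw [abs_mul, abs_mul, abs_of_pos (by norm_num : (0 : ℝ) < 1 / 3)]
    have := abs_nonneg (u - v)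
    have := abs_nonneg (u - w)
    linarith
  have b1 : |v - (u + v + w) / 3| ≤ |u - v| + |v - w| := by
    have : v - (u + v + w) / 3 = (1 / 3) * (v - u) + (1 / 3) * (v - w) := by ring
    rw [this]
    refine (abs_add_le _ _).trans ?_
    rw [abs_mul, abs_mul, abs_of_pos (by norm_num : (0 : ℝ) < 1 / 3), abs_sub_comm v u]
    have := abs_nonneg (u - v)
    have := abs_nonneg (v - w)
    linarith
  have b2 : |w - (u + v + w) / 3| ≤ |u - w| + |v - w| := by
    have : w - (u + v + w) / 3 = (1 / 3) * (w - u) + (1 / 3) * (w - v) := by ring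
    rw [this]
    refine (abs_add_le _ _).trans ?_
    rw [abs_mul, abs_mul, abs_of_pos (by norm_num : (0 : ℝ) < 1 / 3), abs_sub_comm w u,
      abs_sub_comm w v]
    have := abs_nonneg (u - w)
    have := abs_nonneg (v - w)
    linarith
  have := abs_nonneg (u - v)
  have := abs_nonneg (u - w)
  have := abs_nonneg (v - w)
  linarith

/-- nonreconstruction from the two-state comparison -/
theorem mp {d : ℕ} {lam : ℝ} (h0 : -(1 / 2) ≤ lam) (h1 : lam ≤ 1) (hd : 2 ≤ d)
    (h : 3 * (d * lam ^ 2) ≤ 2 + lam) : Tendsto (fun n => aSeq 3 d lam n) atTop (nhds 0) := by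
  have t01 := tendsto_YY h0 h1 hd h 0 1 (by decide)
  have t02 := tendsto_YY h0 h1 hd h 0 2 (by decide)
  have t12 := tendsto_YY h0 h1 hd h 1 2 (by decide)
  rw [Metric.tendsto_atTop]
  intro ε hε
  obtain ⟨η, hη⟩ : ∃ η, η = ε / 12 := ⟨_, rfl⟩
  have hη0 : 0 < η := by rw [hη]; positivity
  have hs : (0 : ℝ) < η ^ 2 := by positivity
  have g01 := t01.eventually (gt_mem_nhds hs)
  have g02 := t02.eventually (gt_mem_nhds hs)
  have g12 := t12.eventually (gt_mem_nhds hs)
  obtain ⟨N, hN⟩ := eventually_atTop.1 (g01.and (g02.and g12))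
  refine ⟨N, fun n hn => ?_⟩
  obtain ⟨k1, k2, k3⟩ := hN n hn
  have hb := aSeq_le_pairs (d := d) h0 h1 n
  rw [Finset.sum_add_distrib, Finset.sum_add_distrib] at hb
  have m1 := sum_abs_le (d := d) h0 h1 n 0 1 hη0
  have m2 := sum_abs_le (d := d) h0 h1 n 0 2 hη0
  have m3 := sum_abs_le (d := d) h0 h1 n 1 2 hη0
  have q1 : (1 - YY d lam n 0 1 / 2) / η ≤ η := by
    rw [div_le_iff₀ hη0]; nlinarith
  have q2 : (1 - YY d lam n 0 2 / 2) / η ≤ η := by
    rw [div_le_iff₀ hη0]; nlinarith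
  have q3 : (1 - YY d lam n 1 2 / 2) / η ≤ η := by
    rw [div_le_iff₀ hη0]; nlinarith
  have hnn : 0 ≤ aSeq 3 d lam n := by
    have hl := leaf_nonneg (d := d) h0 h1 n
    unfold aSeq
    refine Finset.sum_nonneg fun c _ => mul_nonneg ?_ (mul_nonneg (by norm_num)
      (Finset.sum_nonneg fun i _ => abs_nonneg _))
    rw [conf_eq]
    have a0 := hl 0 c
    have a1 := hl 1 c
    have a2 := hl 2 c
    linarith
  rw [Real.dist_eq, sub_zero, abs_of_nonneg hnn]
  linarith

end Vale.Agent.Potts.MP
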