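import Vale.Agent.Potts.PwN
import Vale.Agent.Potts.Sub

/-! # P154: main inequality with the first factor in the inverted triangle (from the corners) -/

namespace Vale.Agent.Potts

noncomputable def GI (x y p s T : ℝ) : ℝ :=
  1 + x * y - 2 * (x + y) + 2 * ((1 - y) * p) + 2 * ((1 - x) * s) - 2 * ((1 - x - y) * (p * s))
    - (1 - x * y * (3 - 2 * (p * s))) * (2 * T - 11 / 20)

noncomputable def FI (p s s0 k2 x y : ℝ) : ℝ := GI x y p s (s0 + k2 * (1 - y))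

theorem FI_x (p s s0 k2 y : ℝ) : ∀ x, FI p s s0 k2 x y =
    FI p s s0 k2 0 y + (FI p s s0 k2 1 y - FI p s s0 k2 0 y) * x := by
  intro x; simp only [FI, GI]; ring
theorem FI_y (p s s0 k2 x : ℝ) : ∀ y, FI p s s0 k2 x y =
    FI p s s0 k2 x 0 + (FI p s s0 k2 x 1 - FI p s s0 k2 x 0 -
      (-(2 * (x * (3 - 2 * (p * s)) * k2)))) * y
      + (-(2 * (x * (3 - 2 * (p * s)) * k2))) * y ^ 2 := by
  intro y; simp only [FI, GI]; ring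

theorem FI_corner {p s s0 k2 a b c d x y : ℝ} (hk2 : 0 ≤ k2)
    (hps : p * s ≤ 1) (ha : 0 ≤ a)
    (h00 : 0 ≤ FI p s s0 k2 a c) (h01 : 0 ≤ FI p s s0 k2 a d)
    (h10 : 0 ≤ FI p s s0 k2 b c) (h11 : 0 ≤ FI p s s0 k2 b d)
    (h1 : a ≤ x) (h2 : x ≤ b) (h3 : c ≤ y) (h4 : y ≤ d) : 0 ≤ FI p s s0 k2 x y := by
  have hx : 0 ≤ x := by linarith
  have q : 0 ≤ 3 - 2 * (p * s) := by linarith
  have C2 : -(2 * (x * (3 - 2 * (p * s)) * k2)) ≤ 0 := by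
    have : 0 ≤ x * (3 - 2 * (p * s)) * k2 := by positivity
    linarith
  have e1 : 0 ≤ FI p s s0 k2 x c :=
    affine_nonneg (f := fun x => FI p s s0 k2 x c) (FI_x p s s0 k2 c) h00 h10 h1 h2
  have e2 : 0 ≤ FI p s s0 k2 x d :=
    affine_nonneg (f := fun x => FI p s s0 k2 x d) (FI_x p s s0 k2 d) h01 h11 h1 h2
  exact conc_nonneg (f := fun y => FI p s s0 k2 x y) (FI_y p s s0 k2 x) C2 e1 e2 h3 h4

/-- the four corner inequalities -/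
structure CI : Prop where
  c00 : ∀ p s : ℝ, -(1 / 2) ≤ p → p ≤ 1 / 4 → -(1 / 2) ≤ s → s < 1 →
    0 ≤ GI (p ^ 2) (s ^ 2) p s (s / (1 + s))
  c10 : ∀ p s : ℝ, -(1 / 2) ≤ p → p ≤ 1 / 4 → -(1 / 2) ≤ s → s < 1 →
    0 ≤ GI (1 / (12 + 16 * p)) (s ^ 2) p s (s / (1 + s))
  c01 : ∀ p s : ℝ, -(1 / 2) ≤ p → p ≤ 1 / 4 → -(1 / 2) ≤ s → s < 1 →
    0 ≤ GI (p ^ 2) (1 / (3 - 2 * s)) p s (1 - 2 / (1 + s) + 2 / ((3 - 2 * s) * (1 + s) ^ 2))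
  c11 : ∀ p s : ℝ, -(1 / 2) ≤ p → p ≤ 1 / 4 → -(1 / 2) ≤ s → s < 1 →
    0 ≤ GI (1 / (12 + 16 * p)) (1 / (3 - 2 * s)) p s
      (1 - 2 / (1 + s) + 2 / ((3 - 2 * s) * (1 + s) ^ 2))

theorem GI_nonneg (H : CI) {x y p s : ℝ} (hp1 : -(1 / 2) ≤ p) (hp2 : p ≤ 1 / 4)
    (hs1 : -(1:ℝ) / 2 ≤ s) (hs2 : s < 1) (hx1 : p ^ 2 ≤ x) (hx2 : x ≤ 1 / (12 + 16 * p))
    (hy1 : s ^ 2 ≤ y) (hy2 : y ≤ XL 1 s) (hy3 : y < 1)
    (hD0 : 0 ≤ 1 - x * y * (3 - 2 * (p * s))) :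
    0 ≤ GI x y p s ((s - y) / (1 - y)) := by
  have hs1' : -(1 / 2) ≤ s := by linarith
  have h00 := H.c00 p s hp1 hp2 hs1' hs2
  have h01 := H.c01 p s hp1 hp2 hs1' hs2
  have h10 := H.c10 p s hp1 hp2 hs1' hs2
  have h11 := H.c11 p s hp1 hp2 hs1' hs2
  have s1 : 0 < 1 - s := by linarith
  have s2 : 0 < 1 + s := by linarith
  have s3 : 0 < 3 - 2 * s := by linarith
  have l0 : s / (1 + s) = q0 s := by unfold q0; field_simp; ring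
  have l1 : 1 - 2 / (1 + s) + 2 / ((3 - 2 * s) * (1 + s) ^ 2) = q1 s := by
    unfold q1; field_simp
  have l2 : 1 / (3 - 2 * s) = (3 - 2 * s)⁻¹ := one_div _
  rw [l0, ← line0 hs1 hs2] at h00 h10
  rw [l1, l2, ← line1 hs1 hs2] at h01 h11
  have xl1 : XL 1 s = (3 - 2 * s)⁻¹ := by rw [XL]; norm_num
  rw [xl1] at hy2
  have k2p : 0 ≤ (1 + s)⁻¹ ^ 2 * (1 - s)⁻¹ := by positivity
  have TY := tangent (x := y) hs2 (inv_pos.mpr s2) hy3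
  have hps : p * s ≤ 1 := by nlinarith
  generalize (1 + s)⁻¹ ^ 2 * (1 - s)⁻¹ = k2 at *
  generalize 1 - 2 * (1 + s)⁻¹ = s0 at *
  have main : 0 ≤ FI p s s0 k2 x y :=
    FI_corner (a := p ^ 2) (b := 1 / (12 + 16 * p)) (c := s ^ 2) (d := (3 - 2 * s)⁻¹) k2p hps
      (sq_nonneg _) h00 h01 (by simpa only [FI] using h10) (by simpa only [FI] using h11)
      hx1 hx2 hy1 hy2
  have last : FI p s s0 k2 x y ≤ GI x y p s ((s - y) / (1 - y)) := by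
    simp only [FI, GI]
    have h4 : (2 * ((s - y) / (1 - y)) - 11 / 20) ≤ (2 * (s0 + k2 * (1 - y)) - 11 / 20) := by
      linarith
    have h5 := mul_le_mul_of_nonneg_left h4 hD0
    linarith
  linarith

theorem pw_asmI {k x y R1 R2 p s Z1 Z2 Z3 W1 W2 W3 E1 E2 E3 F1 F2 F3 : ℝ} (hk0 : 0 < k)
    (hx0 : 0 ≤ x) (hy0 : 0 ≤ y) (hy1 : y < 1) (hRp : R1 = x * p) (hSp : R2 = y * s)
    (hG' : 0 ≤ 1 - x * y * (3 - 2 * (p * s)) → 0 ≤ GI x y p s ((s - y) / (1 - y)))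
    (P1 : 0 < Z1) (P2 : 0 < Z2) (P3 : 0 < Z3) (Q1 : 0 < W1) (Q2 : 0 < W2) (Q3 : 0 < W3)
    (I1 : E1 * Z2 * Z3 + E2 * Z1 * Z3 + E3 * Z1 * Z2 = 9 * NN x y R1 R2)
    (I2 : F1 * W3 * W2 + F3 * W1 * W2 + F2 * W1 * W3 = 9 * NN x y R1 R2)
    (ID : Z1 * Z2 * Z3 + W1 * W2 * W3 = 2 * (1 - 3 * (x * y) + 2 * (R1 * R2)))
    (S1 : Z1 + Z2 + Z3 = 3) (S2 : W1 + W2 + W3 = 3) (N1 : 0 < NN x y R1 R2) :
    (k * (Z1 - E1 / (3 * Z1)) + k * (Z2 - E2 / (3 * Z2)) + k * (Z3 - E3 / (3 * Z3)) +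
      (k * (W1 - F1 / (3 * W1)) + k * (W2 - F2 / (3 * W2)) + k * (W3 - F3 / (3 * W3)))) / 6 ≤
    k * (x + y + 11 / 20 * (x * y) - 2 * (x * ((R2 - y ^ 2) / (1 - y)))) := by
  have J1 := three_quot P1 P2 P3 I1
  have J2 := three_quot Q1 Q3 Q2 I2
  set D0 := 1 - 3 * (x * y) + 2 * (R1 * R2) with hD0
  have hDp0 : 0 < Z1 * Z2 * Z3 := by positivity
  have hDm0 : 0 < W1 * W3 * W2 := by positivity
  have hDD : Z1 * Z2 * Z3 + W1 * W3 * W2 = 2 * D0 := by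
    rw [← ID]; ring
  have hD00 : 0 < D0 := by linarith
  have hG := hG' (by
    have : 1 - x * y * (3 - 2 * (p * s)) = D0 := by rw [hD0, hRp, hSp]; ring
    rw [this]; exact hD00.le)
  have y1 : 1 - y ≠ 0 := by linarith
  have hQ : x * y * GI x y p s ((s - y) / (1 - y)) =
      D0 * (x + y - 1 + 11 / 20 * (x * y) - 2 * (x * ((R2 - y ^ 2) / (1 - y))))
        + NN x y R1 R2 := by
    have r2 : (R2 - y ^ 2) / (1 - y) = y * ((s - y) / (1 - y)) := by rw [hSp]; field_simp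
    rw [r2]
    generalize (s - y) / (1 - y) = ty
    rw [hD0, hRp, hSp]; simp only [GI, NN]; ring
  have h1 : 0 ≤ x * y * GI x y p s ((s - y) / (1 - y)) :=
    mul_nonneg (mul_nonneg hx0 hy0) hG
  rw [hQ] at h1
  clear hQ I1 I2 hG hG'
  generalize NN x y R1 R2 = N at *
  set A := x + y - 1 + 11 / 20 * (x * y) - 2 * (x * ((R2 - y ^ 2) / (1 - y))) with hA
  generalize Z1 * Z2 * Z3 = Dp at *
  generalize W1 * W3 * W2 = Dm at *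
  have key : 2 * (N / D0) ≤ N / Dp + N / Dm := by
    have : N / Dp + N / Dm - 2 * (N / D0) = N * (Dp - Dm) ^ 2 / (2 * Dp * Dm * D0) := by
      have hh : D0 = (Dp + Dm) / 2 := by linarith
      rw [hh]
      have : Dp + Dm ≠ 0 := by positivity
      field_simp
      ring
    have h2 : 0 ≤ N * (Dp - Dm) ^ 2 / (2 * Dp * Dm * D0) := by positivity
    linarith
  have main : 0 ≤ A + N / D0 := by
    have : A + N / D0 = (D0 * A + N) / D0 := by field_simp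
    rw [this]
    exact div_nonneg h1 hD00.le
  have tot : (k * (Z1 - E1 / (3 * Z1)) + k * (Z2 - E2 / (3 * Z2)) + k * (Z3 - E3 / (3 * Z3)) +
      (k * (W1 - F1 / (3 * W1)) + k * (W2 - F2 / (3 * W2)) + k * (W3 - F3 / (3 * W3)))) / 6
      = k * (1 - (N / Dp + N / Dm) / 2) := by
    have : (k * (Z1 - E1 / (3 * Z1)) + k * (Z2 - E2 / (3 * Z2)) + k * (Z3 - E3 / (3 * Z3)) +
      (k * (W1 - F1 / (3 * W1)) + k * (W2 - F2 / (3 * W2)) + k * (W3 - F3 / (3 * W3)))) / 6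
      = k * (((Z1 + Z2 + Z3) + (W1 + W2 + W3) - (E1 / (3 * Z1) + E2 / (3 * Z2) + E3 / (3 * Z3))
        - (F1 / (3 * W1) + F3 / (3 * W3) + F2 / (3 * W2))) / 6) := by ring
    rw [this, J1, J2, S1, S2]
    ring
  rw [tot]
  apply mul_le_mul_of_nonneg_left _ hk0.le
  linarith

/-- domain facts for the inverted triangle -/
theorem dom_inv {a0 a1 p : ℝ} (h0 : a0 ≤ 3 / 2) (h1 : a1 ≤ 3 / 2) (h2 : 3 - a0 - a1 ≤ 3 / 2)
    (hR : rr a0 a1 = xx a0 a1 * p) (hp : p ^ 2 ≤ xx a0 a1) (hp0 : -(1:ℝ) / 2 ≤ p) :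
    -(1 / 2) ≤ p ∧ p ≤ 1 / 4 ∧ xx a0 a1 ≤ 1 / (12 + 16 * p) := by
  have u0 : 0 ≤ 3 / 2 - a0 := by linarith
  have u1 : 0 ≤ 3 / 2 - a1 := by linarith
  have u2 : 0 ≤ 3 / 2 - (3 - a0 - a1) := by linarith
  have hD : 1 / 8 - 3 / 2 * xx a0 a1 - 2 * rr a0 a1 =
      (3 / 2 - a0) * (3 / 2 - a1) * (3 / 2 - (3 - a0 - a1)) := by
    simp only [xx, rr]; ring
  have hD0 : 0 ≤ 1 / 8 - 3 / 2 * xx a0 a1 - 2 * rr a0 a1 := by rw [hD]; positivity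
  rw [hR] at hD0
  have hx : xx a0 a1 * (12 + 16 * p) ≤ 1 := by linarith
  have hq : 0 < 12 + 16 * p := by linarith
  refine ⟨by linarith, ?_, ?_⟩
  · by_contra hc
    push Not at hc
    have e1 : p ^ 2 * (12 + 16 * p) ≤ 1 := le_trans (mul_le_mul_of_nonneg_right hp hq.le) hx
    have e2 : 0 < (p - 1 / 4) * (16 * (p + 1 / 2) ^ 2) := by
      have : 0 < p - 1 / 4 := by linarith
      have : 0 < p + 1 / 2 := by linarith
      positivity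
    nlinarith
  · rw [le_div_iff₀ hq]
    exact hx

theorem pwinv_of (H : CI) : PWinv (11 / 20) 2 := by
  intro a b hap ha32 hbp
  have hpa : 0 < pp a := by
    unfold pp; linarith [hap 0, hap 1, hap 2]
  have ha : InT 1 a := ⟨hpa, fun i => by simpa using (hap i).le⟩
  have hpb : 0 < pp b := by
    unfold pp; linarith [hbp 0, hbp 1, hbp 2]
  have hb : InT 1 b := ⟨hpb, fun i => by simpa using (hbp i).le⟩
  obtain ⟨a0, a1, ha0, ha1, ha2, ea0, ea1, ea2, fa, ra⟩ := norm_V3 ha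
  obtain ⟨b0, b1, hb0, hb1, hb2, eb0, eb1, eb2, fb, rb⟩ := norm_V3 hb
  obtain ⟨hx0, -, -, -, p, hRp, hp1, -, hp3, -⟩ := dom (by norm_num) ha0 ha1 ha2
  obtain ⟨hy0, -, -, -, s, hSp, hs1, hs2, hs3, hs4⟩ := dom (by norm_num) hb0 hb1 hb2
  set k := pp a * pp b with hk
  have hk0 : 0 < k := mul_pos hpa hpb
  have pa0 : 0 < a0 := by
    have := hap 0; rw [ea0] at this; exact (mul_pos_iff_of_pos_left hpa).mp this
  have pa1 : 0 < a1 := by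
    have := hap 1; rw [ea1] at this; exact (mul_pos_iff_of_pos_left hpa).mp this
  have pa2 : 0 < 3 - a0 - a1 := by
    have := hap 2; rw [ea2] at this; exact (mul_pos_iff_of_pos_left hpa).mp this
  have qa0 : a0 ≤ 3 / 2 := by
    have := ha32 0
    rw [ea0] at this
    exact le_of_mul_le_mul_left (by linarith : pp a * a0 ≤ pp a * (3 / 2)) hpa
  have qa1 : a1 ≤ 3 / 2 := by
    have := ha32 1
    rw [ea1] at this
    exact le_of_mul_le_mul_left (by linarith : pp a * a1 ≤ pp a * (3 / 2)) hpa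
  have qa2 : 3 - a0 - a1 ≤ 3 / 2 := by
    have := ha32 2
    rw [ea2] at this
    exact le_of_mul_le_mul_left (by linarith : pp a * (3 - a0 - a1) ≤ pp a * (3 / 2)) hpa
  obtain ⟨hp1', hp2', hp4'⟩ := dom_inv qa0 qa1 qa2 hRp hp3 hp1
  have pb0 : 0 < b0 := by
    have := hbp 0; rw [eb0] at this; exact (mul_pos_iff_of_pos_left hpb).mp this
  have pb1 : 0 < b1 := by
    have := hbp 1; rw [eb1] at this; exact (mul_pos_iff_of_pos_left hpb).mp this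
  have pb2 : 0 < 3 - b0 - b1 := by
    have := hbp 2; rw [eb2] at this; exact (mul_pos_iff_of_pos_left hpb).mp this
  have hy1 : xx b0 b1 < 1 := by
    have : xx b0 b1 = 1 - (b0 * b1 + b1 * (3 - b0 - b1) + b0 * (3 - b0 - b1)) / 3 := rfl
    rw [this]
    have : 0 < b0 * b1 + b1 * (3 - b0 - b1) + b0 * (3 - b0 - b1) := by positivity
    linarith
  have hs3' : s < 1 := by
    by_contra hc
    push Not at hc
    nlinarith
  have fmb := fm_norm hpb eb0 eb1 eb2 fb hy1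
  rw [sum_mul3]
  rw [Ff_prod (k := k) (a0 := a0) (a1 := a1) (a2 := 3 - a0 - a1) (b0 := b0) (b1 := b1)
      (b2 := 3 - b0 - b1) hk0 (zz_pos pa0 pa1 pa2 pb0 pb1 pb2) (a 0 * b 0) (a 1 * b 1) (a 2 * b 2)
      (by rw [ea0, eb0, hk]; ring) (by rw [ea1, eb1, hk]; ring) (by rw [ea2, eb2, hk]; ring),
    Ff_prod (k := k) (a0 := a0) (a1 := a1) (a2 := 3 - a0 - a1) (b0 := b1) (b1 := 3 - b0 - b1)
      (b2 := b0) hk0 (zz_pos pa0 pa1 pa2 pb1 pb2 pb0) (a 0 * b 1) (a 1 * b 2) (a 2 * b 0)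
      (by rw [ea0, eb1, hk]; ring) (by rw [ea1, eb2, hk]; ring) (by rw [ea2, eb0, hk]; ring),
    Ff_prod (k := k) (a0 := a0) (a1 := a1) (a2 := 3 - a0 - a1) (b0 := 3 - b0 - b1) (b1 := b0)
      (b2 := b1) hk0 (zz_pos pa0 pa1 pa2 pb2 pb0 pb1) (a 0 * b 2) (a 1 * b 0) (a 2 * b 1)
      (by rw [ea0, eb2, hk]; ring) (by rw [ea1, eb0, hk]; ring) (by rw [ea2, eb1, hk]; ring),
    Ff_prod (k := k) (a0 := a0) (a1 := a1) (a2 := 3 - a0 - a1) (b0 := b1) (b1 := b0)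
      (b2 := 3 - b0 - b1) hk0 (zz_pos pa0 pa1 pa2 pb1 pb0 pb2) (a 0 * b 1) (a 1 * b 0) (a 2 * b 2)
      (by rw [ea0, eb1, hk]; ring) (by rw [ea1, eb0, hk]; ring) (by rw [ea2, eb2, hk]; ring),
    Ff_prod (k := k) (a0 := a0) (a1 := a1) (a2 := 3 - a0 - a1) (b0 := 3 - b0 - b1) (b1 := b1)
      (b2 := b0) hk0 (zz_pos pa0 pa1 pa2 pb2 pb1 pb0) (a 0 * b 2) (a 1 * b 1) (a 2 * b 0)
      (by rw [ea0, eb2, hk]; ring) (by rw [ea1, eb1, hk]; ring) (by rw [ea2, eb0, hk]; ring),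
    Ff_prod (k := k) (a0 := a0) (a1 := a1) (a2 := 3 - a0 - a1) (b0 := b0) (b1 := 3 - b0 - b1)
      (b2 := b1) hk0 (zz_pos pa0 pa1 pa2 pb0 pb2 pb1) (a 0 * b 0) (a 1 * b 2) (a 2 * b 1)
      (by rw [ea0, eb0, hk]; ring) (by rw [ea1, eb2, hk]; ring) (by rw [ea2, eb1, hk]; ring)]
  have P1 := zz_pos pa0 pa1 pa2 pb0 pb1 pb2
  have P2 := zz_pos pa0 pa1 pa2 pb1 pb2 pb0
  have P3 := zz_pos pa0 pa1 pa2 pb2 pb0 pb1
  have Q1 := zz_pos pa0 pa1 pa2 pb1 pb0 pb2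
  have Q2 := zz_pos pa0 pa1 pa2 pb2 pb1 pb0
  have Q3 := zz_pos pa0 pa1 pa2 pb0 pb2 pb1
  have I1 := idN a0 a1 b0 b1
  have I2 := idN a0 a1 b1 b0
  have ID := idD a0 a1 b0 b1
  have xs : xx b1 b0 = xx b0 b1 := by simp only [xx]; ring
  have rs : rr b1 b0 = rr b0 b1 := by simp only [rr, xx]; ring
  have e3 : 3 - b1 - b0 = 3 - b0 - b1 := by ring
  rw [xs, rs, e3] at I2
  have S1 : zz a0 a1 (3-a0-a1) b0 b1 (3-b0-b1) + zz a0 a1 (3-a0-a1) b1 (3-b0-b1) b0 +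
      zz a0 a1 (3-a0-a1) (3-b0-b1) b0 b1 = 3 := by simp only [zz]; ring
  have S2 : zz a0 a1 (3-a0-a1) b1 b0 (3-b0-b1) + zz a0 a1 (3-a0-a1) (3-b0-b1) b1 b0 +
      zz a0 a1 (3-a0-a1) b0 (3-b0-b1) b1 = 3 := by simp only [zz]; ring
  have N1 : 0 < NN (xx a0 a1) (xx b0 b1) (rr a0 a1) (rr b0 b1) := by
    have := ee_pos pa0 pa1 pa2 pb0 pb1 pb2
    have := ee_pos pa0 pa1 pa2 pb1 pb2 pb0
    have := ee_pos pa0 pa1 pa2 pb2 pb0 pb1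
    have : 0 < 9 * NN (xx a0 a1) (xx b0 b1) (rr a0 a1) (rr b0 b1) := by
      rw [← I1]; positivity
    linarith
  have hG' : 0 ≤ 1 - xx a0 a1 * xx b0 b1 * (3 - 2 * (p * s)) →
      0 ≤ GI (xx a0 a1) (xx b0 b1) p s ((s - xx b0 b1) / (1 - xx b0 b1)) :=
    fun h => GI_nonneg H hp1' hp2' hs1 hs3' hp3 hp4' hs3 hs4 hy1 h
  rw [fmb, fa, fb]
  have fin := pw_asmI hk0 hx0 hy0 hy1 hRp hSp hG' P1 P2 P3 Q1 Q2 Q3 I1 I2 ID S1 S2 N1
  refine fin.trans (le_of_eq ?_)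
  rw [hk]
  generalize (rr b0 b1 - xx b0 b1 ^ 2) / (1 - xx b0 b1) = tb
  ring

end Vale.Agent.Potts
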