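import Vale.Agent.Potts.PwN

namespace Vale.Agent.Potts

theorem pwm_neg : PWm (7/20) (3/10) (27/20) 0 := pwm_anti

end Vale.Agent.Potts
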