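import Mathlib
import Vale.Agent.Potts.Alg

namespace Vale.Agent.Potts

/-- one half (rotations or reflections) of the average of `Rr` -/
theorem rot_sum (Z1 Z2 Z3 E1 E2 E3 D w N : ℝ) (h1 : 0 < Z1) (h2 : 0 < Z2) (h3 : 0 < Z3)
    (hs : Z1 + Z2 + Z3 = 3) (hz : Z2 * Z3 + Z1 * Z3 + Z1 * Z2 = 3 * w)
    (hE : E1 * Z2 * Z3 + E2 * Z1 * Z3 + E3 * Z1 * Z2 = 9 * N) (hD : 0 ≤ D) :
    3 * (1 - 3 / 2 * D - (3 / 2 * N - D * (3 * w - 1)) / (Z1 * Z2 * Z3)) ≤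
      (D / Z1 ^ 2 + 2 * Z1 - E1 / Z1) / 2 + (D / Z2 ^ 2 + 2 * Z2 - E2 / Z2) / 2 +
        (D / Z3 ^ 2 + 2 * Z3 - E3 / Z3) / 2 := by
  have hP : 0 < Z1 * Z2 * Z3 := by positivity
  have e1 : D / Z1 ^ 2 + D / Z2 ^ 2 + D / Z3 ^ 2
      = D * ((Z2 * Z3 + Z1 * Z3 + Z1 * Z2) ^ 2 - 2 * (Z1 * Z2 * Z3) * (Z1 + Z2 + Z3)) /
        (Z1 * Z2 * Z3) ^ 2 := by
    field_simp
    ring
  have e2 : E1 / Z1 + E2 / Z2 + E3 / Z3
      = (E1 * Z2 * Z3 + E2 * Z1 * Z3 + E3 * Z1 * Z2) / (Z1 * Z2 * Z3) := by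
    field_simp
  rw [hz, hs] at e1
  rw [hE] at e2
  have e3 : (D / Z1 ^ 2 + 2 * Z1 - E1 / Z1) / 2 + (D / Z2 ^ 2 + 2 * Z2 - E2 / Z2) / 2 +
        (D / Z3 ^ 2 + 2 * Z3 - E3 / Z3) / 2
      = (D * ((3 * w) ^ 2 - 2 * (Z1 * Z2 * Z3) * 3) / (Z1 * Z2 * Z3) ^ 2) / 2 + 3 -
        (9 * N / (Z1 * Z2 * Z3)) / 2 := by
    rw [← e1, ← e2]
    linear_combination hs
  rw [e3]
  set P := Z1 * Z2 * Z3 with hPdef
  have e4 : (D * ((3 * w) ^ 2 - 2 * P * 3) / P ^ 2) / 2 + 3 - (9 * N / P) / 2 -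
      3 * (1 - 3 / 2 * D - (3 / 2 * N - D * (3 * w - 1)) / P) = 9 / 2 * D * (w / P - 1) ^ 2 := by
    field_simp
    ring
  have e5 : 0 ≤ 9 / 2 * D * (w / P - 1) ^ 2 := by positivity
  linarith

/-- the bi-affine factor -/
noncomputable def KP (p s x y : ℝ) : ℝ :=
  (p + s) - (3 - 2 * p * s) * (1 - x * p - y * s + x * y * (p + s)) +
    3 / 2 * (2 - x - y - x * y) - 3 * ((1 - y) * p + (1 - x) * s) +
    (3 - 2 * p) * (3 - 2 * s) / 2 +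
    3 / 2 * (1 - 2 * p * s) * (1 - x * (3 - 2 * p)) * (1 - y * (3 - 2 * s))

theorem K_eq (x y p s : ℝ) :
    (1 - 3 / 2 * ((1 - 3 * x + 2 * (x * p)) * (1 - 3 * y + 2 * (y * s))) - (x * p) * (1 - y) -
        (y * s) * (1 - x)) * (1 - 3 * (x * y) + 2 * ((x * p) * (y * s))) -
      (3 / 2 * NN x y (x * p) (y * s) -
        ((1 - 3 * x + 2 * (x * p)) * (1 - 3 * y + 2 * (y * s))) * (3 * (1 - x * y) - 1))
      = x * y * KP p s x y := by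
  simp only [NN, KP]
  ring

theorem aff_le (A B x x1 x2 m : ℝ) (h1 : x1 ≤ x) (h2 : x ≤ x2) (g1 : m ≤ A + B * x1)
    (g2 : m ≤ A + B * x2) : m ≤ A + B * x := by
  rcases le_total 0 B with h | h
  · nlinarith
  · nlinarith

/-- `KP` is bi-affine: enough to check the corners -/
theorem KP_corners (p s x y x1 x2 y1 y2 m : ℝ) (hx1 : x1 ≤ x) (hx2 : x ≤ x2) (hy1 : y1 ≤ y)
    (hy2 : y ≤ y2) (h11 : m ≤ KP p s x1 y1) (h12 : m ≤ KP p s x1 y2) (h21 : m ≤ KP p s x2 y1)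
    (h22 : m ≤ KP p s x2 y2) : m ≤ KP p s x y := by
  have ex : ∀ x y, KP p s x y = KP p s 0 y + (KP p s 1 y - KP p s 0 y) * x := by
    intro x y; simp only [KP]; ring
  have ey : ∀ x y, KP p s x y = KP p s x 0 + (KP p s x 1 - KP p s x 0) * y := by
    intro x y; simp only [KP]; ring
  have a1 : m ≤ KP p s x1 y := by
    rw [ey]; rw [ey] at h11 h12
    exact aff_le _ _ _ _ _ _ hy1 hy2 h11 h12
  have a2 : m ≤ KP p s x2 y := by
    rw [ey]; rw [ey] at h21 h22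
    exact aff_le _ _ _ _ _ _ hy1 hy2 h21 h22
  rw [ex]; rw [ex] at a1 a2
  exact aff_le _ _ _ _ _ _ hx1 hx2 a1 a2

/-- data of a normalised vector in the triangle of size `L` -/
theorem dom (L a0 a1 : ℝ) (hL : 0 < L) (h0 : 1 - L ≤ a0) (h1 : 1 - L ≤ a1)
    (h2 : 1 - L ≤ 3 - a0 - a1) :
    ∃ p, rr a0 a1 = xx a0 a1 * p ∧ p ^ 2 ≤ xx a0 a1 ∧
      xx a0 a1 * (3 * L - 2 * p) ≤ L ^ 3 ∧ -(L / 2) ≤ p ∧ p ≤ L ∧ 0 ≤ xx a0 a1 ∧
      xx a0 a1 ≤ L ^ 2 := by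
  have hx0 : 0 ≤ xx a0 a1 := by
    simp only [xx]
    nlinarith [sq_nonneg (a0 - a1), sq_nonneg (a0 + a1 - 2)]
  have hxL : xx a0 a1 ≤ L ^ 2 := by
    have e : L ^ 2 - xx a0 a1 = ((a0 - (1 - L)) * (a1 - (1 - L)) +
        (a1 - (1 - L)) * (3 - a0 - a1 - (1 - L)) + (a0 - (1 - L)) * (3 - a0 - a1 - (1 - L))) / 3 := by
      simp only [xx]; ring
    have := mul_nonneg (sub_nonneg.2 h0) (sub_nonneg.2 h1)
    have := mul_nonneg (sub_nonneg.2 h1) (sub_nonneg.2 h2)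
    have := mul_nonneg (sub_nonneg.2 h0) (sub_nonneg.2 h2)
    linarith
  have hR : rr a0 a1 ^ 2 ≤ xx a0 a1 ^ 3 := by
    have h := idV a0 a1
    have h' := sq_nonneg ((a0 - a1) * (a1 - (3-a0-a1)) * ((3-a0-a1) - a0))
    linarith
  have hT : 0 ≤ L ^ 3 - 3 * L * xx a0 a1 + 2 * rr a0 a1 := by
    have e : L ^ 3 - 3 * L * xx a0 a1 + 2 * rr a0 a1 =
        (a0 - (1 - L)) * (a1 - (1 - L)) * (3 - a0 - a1 - (1 - L)) := by
      simp only [xx, rr]; ring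
    rw [e]
    exact mul_nonneg (mul_nonneg (sub_nonneg.2 h0) (sub_nonneg.2 h1)) (sub_nonneg.2 h2)
  generalize xx a0 a1 = x at *
  generalize rr a0 a1 = r at *
  have key : ∃ p, r = x * p ∧ p ^ 2 ≤ x := by
    rcases eq_or_lt_of_le hx0 with h | h
    · refine ⟨0, ?_, by simpa using hx0⟩
      have : r ^ 2 ≤ 0 := by rw [← h] at hR; simpa using hR
      have : r = 0 := by nlinarith [sq_nonneg r]
      rw [this]; simp
    · refine ⟨r / x, by field_simp, ?_⟩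
      rw [div_pow, div_le_iff₀ (by positivity)]
      nlinarith
  obtain ⟨p, hp, hpx⟩ := key
  have hpL : p ≤ L := by nlinarith
  have hpos : 0 < 3 * L - 2 * p := by linarith
  have hxp : x * (3 * L - 2 * p) ≤ L ^ 3 := by rw [hp] at hT; linarith
  refine ⟨p, hp, hpx, hxp, ?_, hpL, hx0, hxL⟩
  by_contra hcon
  push Not at hcon
  have h3 : p ^ 2 * (3 * L - 2 * p) ≤ L ^ 3 := by nlinarith
  have h4 : 0 ≤ (p - L) ^ 2 * (2 * p + L) := by nlinarith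
  have h5 : 0 < (p - L) ^ 2 := by
    have h6 : p - L < 0 := by linarith
    have h7 := mul_pos_of_neg_of_neg h6 h6
    nlinarith
  nlinarith

theorem kappa (L x p : ℝ) (hL : 0 < L) (hx0 : 0 ≤ x) (hxL : x ≤ L ^ 2)
    (hxp : x * (3 * L - 2 * p) ≤ L ^ 3) : x ^ 3 - (x * p) ^ 2 ≤ L ^ 4 / 7 * x := by
  have h1 : 3 * L * x - L ^ 3 ≤ 2 * (x * p) := by linarith
  rcases le_total (3 * L * x - L ^ 3) 0 with h | h
  · -- x <= L^2/3
    have hx3 : 3 * x ≤ L ^ 2 := by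
      have : L * (3 * x - L ^ 2) ≤ 0 := by nlinarith
      by_contra hc
      push Not at hc
      nlinarith [mul_pos hL (sub_pos.2 hc)]
    have : x ^ 2 ≤ L ^ 4 / 7 := by nlinarith
    nlinarith [sq_nonneg (x * p)]
  · have h2 : (3 * L * x - L ^ 3) ^ 2 ≤ 4 * (x * p) ^ 2 := by
      have := pow_le_pow_left₀ h h1 2
      nlinarith
    -- u = x / L^2
    have h3 : x ^ 3 - (3 * L * x - L ^ 3) ^ 2 / 4 ≤ L ^ 4 / 7 * x := by
      obtain ⟨u, hu⟩ : ∃ u, x = L ^ 2 * u := ⟨x / L ^ 2, by field_simp⟩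
      have hu0 : 0 ≤ u := by
        by_contra hc; push Not at hc
        have : L ^ 2 * u < 0 := mul_neg_of_pos_of_neg (by positivity) hc
        linarith
      have hu1 : u ≤ 1 := by
        by_contra hc; push Not at hc
        have : L ^ 2 * 1 < L ^ 2 * u := by
          exact mul_lt_mul_of_pos_left hc (by positivity)
        linarith
      have e : L ^ 4 / 7 * x - (x ^ 3 - (3 * L * x - L ^ 3) ^ 2 / 4)
          = L ^ 6 * (u / 7 - u ^ 3 + (3 * u - 1) ^ 2 / 4) := by rw [hu]; ring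
      have g : 0 ≤ u / 7 - u ^ 3 + (3 * u - 1) ^ 2 / 4 := by
        nlinarith [mul_nonneg (sub_nonneg.2 hu1) (sq_nonneg (u - 209 / 500)),
          mul_nonneg hu0 (sq_nonneg (u - 209 / 500)), sq_nonneg (u - 209 / 500)]
      have := mul_nonneg (by positivity : (0:ℝ) ≤ L ^ 6) g
      linarith
    linarith

end Vale.Agent.Potts
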