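import Mathlib
import Vale.Agent.Potts.Sym
import Vale.Agent.Potts.PwrCore

namespace Vale.Agent.Potts

open Finset

/-- value of `Rr` at a scaled product vector -/
theorem Rr_scaled (k u0 u1 u2 : ℝ) (hk : 0 < k) (hZ : 0 < (u0 + u1 + u2) / 3) :
    Rr ![k * u0, k * u1, k * u2] = k * ((u0 * u1 * u2 / ((u0 + u1 + u2) / 3) ^ 2 +
      2 * ((u0 + u1 + u2) / 3) - (u0 * u1 + u1 * u2 + u0 * u2) / ((u0 + u1 + u2) / 3)) / 2) := by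
  have h1 : Rr ![k * u0, k * u1, k * u2] =
      (k * u0 * (k * u1) * (k * u2) / ((k * u0 + k * u1 + k * u2) / 3) ^ 2 -
        (k * u0 + k * u1 + k * u2) / 3 + 3 * ((k * u0 + k * u1 + k * u2) / 3 -
        (k * u0 * (k * u1) + k * u1 * (k * u2) + k * u0 * (k * u2)) /
          (3 * ((k * u0 + k * u1 + k * u2) / 3)))) / 2 := by
    simp [Rr, Ff, pp, Matrix.cons_val_two]
  have h2 : (k * u0 + k * u1 + k * u2) / 3 = k * ((u0 + u1 + u2) / 3) := by ring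
  rw [h1, h2]
  have h3 : u0 + u1 + u2 = 3 * ((u0 + u1 + u2) / 3) := by ring
  generalize (u0 + u1 + u2) / 3 = Z at *
  field_simp
  ring

theorem D0_eq (x y p s : ℝ) : 1 - 3 * (x * y) + 2 * ((x * p) * (y * s))
    = 1 - x * y * (3 - 2 * p * s) := by ring

theorem xp_lb (x p y : ℝ) (hx0 : 0 ≤ x) (hx1 : x ≤ 1) (hp : -1 ≤ p) (hy0 : 0 ≤ y) (hy1 : y ≤ 1) :
    -1 ≤ x * p * (1 - y) := by
  have h1 : -1 ≤ x * p := by nlinarith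
  nlinarith

theorem ps_le (p s : ℝ) (hp1 : p ≤ 1) (hs1 : s ≤ 1) (hp2 : -1 ≤ p) (hs2 : -1 ≤ s) :
    0 ≤ 3 - 2 * p * s := by
  nlinarith [mul_nonneg (sub_nonneg.2 hp1) (by linarith : (0:ℝ) ≤ s + 1),
    mul_nonneg (sub_nonneg.2 hs1) (by linarith : (0:ℝ) ≤ p + 1)]

theorem D0_ge (L M x y p s : ℝ) (hL : 0 < L) (hM : 0 < M) (hps : 0 ≤ 3 - 2 * p * s)
    (hDps : L ^ 3 * M ^ 3 * (3 - 2 * p * s) ≤ 3 / 5 * ((3 * L - 2 * p) * (3 * M - 2 * s)))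
    (hxp : x * (3 * L - 2 * p) ≤ L ^ 3) (hpL : p ≤ L) (hx0 : 0 ≤ x)
    (hys : y * (3 * M - 2 * s) ≤ M ^ 3) (hsM : s ≤ M) (hy0 : 0 ≤ y) :
    2 / 5 ≤ 1 - 3 * (x * y) + 2 * ((x * p) * (y * s)) := by
  have q1 : 0 < 3 * L - 2 * p := by linarith
  have q2 : 0 < 3 * M - 2 * s := by linarith
  have q3 : x * (3 * L - 2 * p) * (y * (3 * M - 2 * s)) ≤ L ^ 3 * M ^ 3 :=
    mul_le_mul hxp hys (by positivity) (by positivity)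
  have q4 : (x * y * (3 - 2 * p * s)) * ((3 * L - 2 * p) * (3 * M - 2 * s)) ≤
      3 / 5 * ((3 * L - 2 * p) * (3 * M - 2 * s)) := by
    have := mul_le_mul_of_nonneg_right q3 hps
    linarith
  have q5 : x * y * (3 - 2 * p * s) ≤ 3 / 5 :=
    le_of_mul_le_mul_right q4 (by positivity)
  have : 1 - 3 * (x * y) + 2 * ((x * p) * (y * s)) = 1 - x * y * (3 - 2 * p * s) := by ring
  linarith

theorem main_pos (W D0 J C x y k : ℝ) (hKe : W * D0 - C = x * y * k) (hk : 1 / 10 ≤ k)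
    (hx0 : 0 ≤ x) (hy0 : 0 ≤ y) (hD0 : 2 / 5 ≤ D0) (hW3 : W ≤ 3) (hJ0 : 0 ≤ J)
    (hJle : 12 * J ≤ 1 / 25 * (x * y)) : 0 ≤ W * (D0 ^ 2 - 4 * J) - C * D0 := by
  have q0 : W * (D0 ^ 2 - 4 * J) - C * D0 = D0 * (x * y * k) - 4 * J * W := by
    rw [← hKe]; ring
  rw [q0]
  have q1 : 4 * J * W ≤ 12 * J := by nlinarith
  have hxy : 0 ≤ x * y := by positivity
  have q3 : x * y * (1 / 10) ≤ x * y * k := mul_le_mul_of_nonneg_left hk hxy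
  have q4 : 2 / 5 * (x * y * (1 / 10)) ≤ D0 * (x * y * k) :=
    mul_le_mul hD0 q3 (by positivity) (by linarith)
  linarith

/-- algebraic core -/
theorem pwr_alg (L M x y p s D Dp Dm S1 S2 : ℝ) (hL : 0 < L) (hL1 : L < 1) (hM : 0 < M)
    (hM1 : M < 1)
    (hK' : 1 / 10 ≤ KP p s x y)
    (hDps : L ^ 3 * M ^ 3 * (3 - 2 * p * s) ≤ 3 / 5 * ((3 * L - 2 * p) * (3 * M - 2 * s)))
    (hk : 12 * ((L ^ 4 / 7) * (M ^ 4 / 7)) ≤ 1 / 25) (hDpos : 0 ≤ D)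
    (hxp : x * (3 * L - 2 * p) ≤ L ^ 3) (hp0 : -(L / 2) ≤ p) (hpL : p ≤ L) (hx0 : 0 ≤ x)
    (hxL : x ≤ L ^ 2)
    (hys : y * (3 * M - 2 * s) ≤ M ^ 3) (hs0 : -(M / 2) ≤ s) (hsM : s ≤ M) (hy0 : 0 ≤ y)
    (hyM : y ≤ M ^ 2) (hPp : 0 < Dp) (hPm : 0 < Dm)
    (hJa : 0 ≤ x ^ 3 - (x * p) ^ 2) (hJb : 0 ≤ y ^ 3 - (y * s) ^ 2)
    (hDv : D = (1 - 3 * x + 2 * (x * p)) * (1 - 3 * y + 2 * (y * s)))
    (hDD : Dp + Dm = 2 * (1 - 3 * (x * y) + 2 * ((x * p) * (y * s))))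
    (hprod : Dp * Dm = (1 - 3 * (x * y) + 2 * ((x * p) * (y * s))) ^ 2 -
      4 * ((x ^ 3 - (x * p) ^ 2) * (y ^ 3 - (y * s) ^ 2)))
    (R1 : 3 * (1 - 3 / 2 * D - (3 / 2 * NN x y (x * p) (y * s) - D * (3 * (1 - x * y) - 1)) / Dp)
      ≤ S1)
    (R2 : 3 * (1 - 3 / 2 * D - (3 / 2 * NN x y (x * p) (y * s) - D * (3 * (1 - x * y) - 1)) / Dm)
      ≤ S2) :
    x * p * (1 - y) + y * s * (1 - x) ≤ (S1 + S2) / 6 := by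
  have hka := kappa L x p hL hx0 hxL hxp
  have hkb := kappa M y s hM hy0 hyM hys
  have hKe := K_eq x y p s
  rw [← hDv] at hKe
  obtain ⟨D0, hD0⟩ : ∃ D0, D0 = 1 - 3 * (x * y) + 2 * ((x * p) * (y * s)) := ⟨_, rfl⟩
  obtain ⟨W, hW⟩ : ∃ W, W = 1 - 3 / 2 * D - (x * p) * (1 - y) - (y * s) * (1 - x) := ⟨_, rfl⟩
  obtain ⟨C, hC⟩ : ∃ C, C = 3 / 2 * NN x y (x * p) (y * s) - D * (3 * (1 - x * y) - 1) := ⟨_, rfl⟩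
  obtain ⟨J, hJdef⟩ : ∃ J, J = (x ^ 3 - (x * p) ^ 2) * (y ^ 3 - (y * s) ^ 2) := ⟨_, rfl⟩
  rw [← hD0, ← hC, ← hW] at hKe
  rw [← hD0] at hDD hprod
  rw [← hJdef] at hprod
  rw [← hC] at R1 R2
  have hL2 : L ^ 2 < 1 := by rw [sq]; exact mul_lt_one_of_nonneg_of_lt_one_left hL.le hL1 hL1.le
  have hM2 : M ^ 2 < 1 := by rw [sq]; exact mul_lt_one_of_nonneg_of_lt_one_left hM.le hM1 hM1.le
  have hx1 : x ≤ 1 := by linarith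
  have hy1 : y ≤ 1 := by linarith
  have hp1 : p ≤ 1 := by linarith
  have hs1 : s ≤ 1 := by linarith
  have hp2 : -1 ≤ p := by linarith
  have hs2 : -1 ≤ s := by linarith
  have hD0ge : 2 / 5 ≤ D0 := by
    rw [hD0]
    exact D0_ge L M x y p s hL hM (ps_le p s hp1 hs1 hp2 hs2) hDps hxp hpL hx0 hys hsM hy0
  have hW3 : W ≤ 3 := by
    have q1 := xp_lb x p y hx0 hx1 hp2 hy0 hy1
    have q2 := xp_lb y s x hy0 hy1 hs2 hx0 hx1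
    rw [hW]; linarith
  have hJ0 : 0 ≤ J := by rw [hJdef]; exact mul_nonneg hJa hJb
  have hJle : 12 * J ≤ 1 / 25 * (x * y) := by
    have q1 : J ≤ (L ^ 4 / 7 * x) * (M ^ 4 / 7 * y) := by
      rw [hJdef]; exact mul_le_mul hka hkb hJb (by positivity)
    have q2 : 12 * ((L ^ 4 / 7) * (M ^ 4 / 7)) * (x * y) ≤ 1 / 25 * (x * y) :=
      mul_le_mul_of_nonneg_right hk (by positivity)
    linarith
  have main := main_pos W D0 J C x y _ hKe hK' hx0 hy0 hD0ge hW3 hJ0 hJle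
  have hpm : 0 < Dp * Dm := mul_pos hPp hPm
  have fin : C / Dp + C / Dm ≤ 2 * W := by
    have q1 : C / Dp + C / Dm = C * (Dp + Dm) / (Dp * Dm) := by field_simp; ring
    rw [q1, div_le_iff₀ hpm, hDD, hprod]
    linarith
  have : x * p * (1 - y) + y * s * (1 - x) = 1 - 3 / 2 * D - W := by rw [hW]; ring
  linarith

/-- normalised inequality -/
theorem pwr_norm (L M : ℝ) (hL : 0 < L) (hL1 : L < 1) (hM : 0 < M) (hM1 : M < 1)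
    (hK : ∀ p s x y, -(L / 2) ≤ p → p ≤ L → -(M / 2) ≤ s → s ≤ M → p ^ 2 ≤ x →
      x * (3 * L - 2 * p) ≤ L ^ 3 → s ^ 2 ≤ y → y * (3 * M - 2 * s) ≤ M ^ 3 →
      1 / 10 ≤ KP p s x y)
    (hD : ∀ p s, -(L / 2) ≤ p → p ≤ L → -(M / 2) ≤ s → s ≤ M →
      L ^ 3 * M ^ 3 * (3 - 2 * p * s) ≤ 3 / 5 * ((3 * L - 2 * p) * (3 * M - 2 * s)))
    (hk : 12 * ((L ^ 4 / 7) * (M ^ 4 / 7)) ≤ 1 / 25)
    (a0 a1 b0 b1 : ℝ) (ha0 : 1 - L ≤ a0) (ha1 : 1 - L ≤ a1) (ha2 : 1 - L ≤ 3 - a0 - a1)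
    (hb0 : 1 - M ≤ b0) (hb1 : 1 - M ≤ b1) (hb2 : 1 - M ≤ 3 - b0 - b1)
    (D : ℝ) (hDdef : D = a0 * a1 * (3 - a0 - a1) * (b0 * b1 * (3 - b0 - b1)))
    (T : ℝ → ℝ → ℝ) (hT : ∀ Z E, T Z E = (D / Z ^ 2 + 2 * Z - E / Z) / 2) :
    rr a0 a1 * (1 - xx b0 b1) + rr b0 b1 * (1 - xx a0 a1) ≤
      ((T (zz a0 a1 (3-a0-a1) b0 b1 (3-b0-b1)) (ee a0 a1 (3-a0-a1) b0 b1 (3-b0-b1)) +
        T (zz a0 a1 (3-a0-a1) b1 (3-b0-b1) b0) (ee a0 a1 (3-a0-a1) b1 (3-b0-b1) b0) +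
        T (zz a0 a1 (3-a0-a1) (3-b0-b1) b0 b1) (ee a0 a1 (3-a0-a1) (3-b0-b1) b0 b1)) +
       (T (zz a0 a1 (3-a0-a1) b1 b0 (3-b0-b1)) (ee a0 a1 (3-a0-a1) b1 b0 (3-b0-b1)) +
        T (zz a0 a1 (3-a0-a1) (3-b0-b1) b1 b0) (ee a0 a1 (3-a0-a1) (3-b0-b1) b1 b0) +
        T (zz a0 a1 (3-a0-a1) b0 (3-b0-b1) b1) (ee a0 a1 (3-a0-a1) b0 (3-b0-b1) b1))) / 6 := by
  have pa0 : 0 < a0 := by linarith
  have pa1 : 0 < a1 := by linarith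
  have pa2 : 0 < 3 - a0 - a1 := by linarith
  have pb0 : 0 < b0 := by linarith
  have pb1 : 0 < b1 := by linarith
  have pb2 : 0 < 3 - b0 - b1 := by linarith
  have hDpos : 0 < D := by rw [hDdef]; positivity
  -- reflected b: b' = (b1, b0)
  have hx' : xx b1 b0 = xx b0 b1 := by simp only [xx]; ring
  have hr' : rr b1 b0 = rr b0 b1 := by simp only [rr, xx]; ring
  have e2 : 3 - b1 - b0 = 3 - b0 - b1 := by ring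
  -- the two halves
  have zpos : ∀ c0 c1 c2 : ℝ, 0 < c0 → 0 < c1 → 0 < c2 → 0 < zz a0 a1 (3-a0-a1) c0 c1 c2 := by
    intro c0 c1 c2 h0 h1 h2
    simp only [zz]; positivity
  have R1 := rot_sum (zz a0 a1 (3-a0-a1) b0 b1 (3-b0-b1)) (zz a0 a1 (3-a0-a1) b1 (3-b0-b1) b0)
    (zz a0 a1 (3-a0-a1) (3-b0-b1) b0 b1) (ee a0 a1 (3-a0-a1) b0 b1 (3-b0-b1))
    (ee a0 a1 (3-a0-a1) b1 (3-b0-b1) b0) (ee a0 a1 (3-a0-a1) (3-b0-b1) b0 b1) D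
    (1 - xx a0 a1 * xx b0 b1) (NN (xx a0 a1) (xx b0 b1) (rr a0 a1) (rr b0 b1))
    (zpos _ _ _ pb0 pb1 pb2) (zpos _ _ _ pb1 pb2 pb0) (zpos _ _ _ pb2 pb0 pb1)
    (by simp only [zz]; ring) (idZZ a0 a1 b0 b1) (idN a0 a1 b0 b1) hDpos.le
  have R2 := rot_sum (zz a0 a1 (3-a0-a1) b1 b0 (3-b0-b1)) (zz a0 a1 (3-a0-a1) b0 (3-b0-b1) b1)
    (zz a0 a1 (3-a0-a1) (3-b0-b1) b1 b0) (ee a0 a1 (3-a0-a1) b1 b0 (3-b0-b1))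
    (ee a0 a1 (3-a0-a1) b0 (3-b0-b1) b1) (ee a0 a1 (3-a0-a1) (3-b0-b1) b1 b0) D
    (1 - xx a0 a1 * xx b0 b1) (NN (xx a0 a1) (xx b0 b1) (rr a0 a1) (rr b0 b1))
    (zpos _ _ _ pb1 pb0 pb2) (zpos _ _ _ pb0 pb2 pb1) (zpos _ _ _ pb2 pb1 pb0)
    (by simp only [zz]; ring)
    (by have h := idZZ a0 a1 b1 b0; rw [e2, hx'] at h; exact h)
    (by have h := idN a0 a1 b1 b0; rw [e2, hx', hr'] at h; exact h) hDpos.le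
  have hDD := idD a0 a1 b0 b1
  have hJ := idJ a0 a1 b0 b1
  have hVa := idV a0 a1
  have hVb := idV b0 b1
  have hD1 : a0 * a1 * (3 - a0 - a1) = 1 - 3 * xx a0 a1 + 2 * rr a0 a1 := by
    simp only [rr]; ring
  have hD2 : b0 * b1 * (3 - b0 - b1) = 1 - 3 * xx b0 b1 + 2 * rr b0 b1 := by
    simp only [rr]; ring
  have hDv : D = (1 - 3 * xx a0 a1 + 2 * rr a0 a1) * (1 - 3 * xx b0 b1 + 2 * rr b0 b1) := by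
    rw [hDdef, hD1, hD2]
  obtain ⟨p, hp, hpx, hxp, hp0, hpL, hx0, hxL⟩ := dom L a0 a1 hL ha0 ha1 ha2
  obtain ⟨s, hs, hsy, hys, hs0, hsM, hy0, hyM⟩ := dom M b0 b1 hM hb0 hb1 hb2
  simp only [← hT] at R1 R2
  have hPp : 0 < zz a0 a1 (3-a0-a1) b0 b1 (3-b0-b1) * zz a0 a1 (3-a0-a1) b1 (3-b0-b1) b0 *
      zz a0 a1 (3-a0-a1) (3-b0-b1) b0 b1 :=
    mul_pos (mul_pos (zpos _ _ _ pb0 pb1 pb2) (zpos _ _ _ pb1 pb2 pb0)) (zpos _ _ _ pb2 pb0 pb1)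
  have hPm : 0 < zz a0 a1 (3-a0-a1) b1 b0 (3-b0-b1) * zz a0 a1 (3-a0-a1) (3-b0-b1) b1 b0 *
      zz a0 a1 (3-a0-a1) b0 (3-b0-b1) b1 :=
    mul_pos (mul_pos (zpos _ _ _ pb1 pb0 pb2) (zpos _ _ _ pb2 pb1 pb0)) (zpos _ _ _ pb0 pb2 pb1)
  have hcomm : zz a0 a1 (3-a0-a1) b1 b0 (3-b0-b1) * zz a0 a1 (3-a0-a1) b0 (3-b0-b1) b1 *
      zz a0 a1 (3-a0-a1) (3-b0-b1) b1 b0 = zz a0 a1 (3-a0-a1) b1 b0 (3-b0-b1) *
      zz a0 a1 (3-a0-a1) (3-b0-b1) b1 b0 * zz a0 a1 (3-a0-a1) b0 (3-b0-b1) b1 := by ring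
  rw [hcomm] at R2
  have hK' := hK p s _ _ hp0 hpL hs0 hsM hpx hxp hsy hys
  have hDps := hD p s hp0 hpL hs0 hsM
  have hprod : ∀ Dp Dm Va Vb : ℝ, Dp + Dm = 2 * (1 - 3 * (xx a0 a1 * xx b0 b1) +
        2 * (rr a0 a1 * rr b0 b1)) → Dp - Dm = Va * Vb / 27 →
      108 * (xx a0 a1 ^ 3 - rr a0 a1 ^ 2) = Va ^ 2 → 108 * (xx b0 b1 ^ 3 - rr b0 b1 ^ 2) = Vb ^ 2 →
      Dp * Dm = (1 - 3 * (xx a0 a1 * xx b0 b1) + 2 * (rr a0 a1 * rr b0 b1)) ^ 2 -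
      4 * ((xx a0 a1 ^ 3 - rr a0 a1 ^ 2) * (xx b0 b1 ^ 3 - rr b0 b1 ^ 2)) := by
    intro Dp Dm Va Vb hDD hJ hVa hVb
    have q1 : 4 * (Dp * Dm) = (Dp + Dm) ^ 2 - (Dp - Dm) ^ 2 := by ring
    rw [hDD, hJ] at q1
    have q2 : (Va * Vb / 27) ^ 2 = 16 * ((xx a0 a1 ^ 3 - rr a0 a1 ^ 2) *
        (xx b0 b1 ^ 3 - rr b0 b1 ^ 2)) := by
      have q3 : (Va * Vb / 27) ^ 2 = Va ^ 2 * Vb ^ 2 / 729 := by ring
      rw [q3, ← hVa, ← hVb]; ring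
    rw [q2] at q1
    linarith
  have hpr := hprod _ _ _ _ hDD hJ hVa hVb
  have hJa : 0 ≤ xx a0 a1 ^ 3 - rr a0 a1 ^ 2 := by
    have := sq_nonneg ((a0 - a1) * (a1 - (3-a0-a1)) * ((3-a0-a1) - a0))
    rw [← hVa] at this; linarith
  have hJb : 0 ≤ xx b0 b1 ^ 3 - rr b0 b1 ^ 2 := by
    have := sq_nonneg ((b0 - b1) * (b1 - (3-b0-b1)) * ((3-b0-b1) - b0))
    rw [← hVb] at this; linarith
  rw [hp] at R1 R2 hDD hpr hJa hDv ⊢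
  rw [hs] at R1 R2 hDD hpr hJb hDv ⊢
  have R2' : 3 * (1 - 3 / 2 * D - (3 / 2 * NN (xx a0 a1) (xx b0 b1) (xx a0 a1 * p)
      (xx b0 b1 * s) - D * (3 * (1 - xx a0 a1 * xx b0 b1) - 1)) /
        (zz a0 a1 (3-a0-a1) b1 b0 (3-b0-b1) *
      zz a0 a1 (3-a0-a1) (3-b0-b1) b1 b0 * zz a0 a1 (3-a0-a1) b0 (3-b0-b1) b1)) ≤
      T (zz a0 a1 (3-a0-a1) b1 b0 (3-b0-b1)) (ee a0 a1 (3-a0-a1) b1 b0 (3-b0-b1)) +
        T (zz a0 a1 (3-a0-a1) (3-b0-b1) b1 b0) (ee a0 a1 (3-a0-a1) (3-b0-b1) b1 b0) +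
        T (zz a0 a1 (3-a0-a1) b0 (3-b0-b1) b1) (ee a0 a1 (3-a0-a1) b0 (3-b0-b1) b1) := by
    linarith
  exact pwr_alg L M _ _ p s D _ _ _ _ hL hL1 hM hM1 hK' hDps hk hDpos.le hxp hp0 hpL hx0 hxL
    hys hs0 hsM hy0 hyM hPp hPm hJa hJb hDv hDD hpr R1 R2'

end Vale.Agent.Potts
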