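import Mathlib
import Vale.Agent.Potts.PwrGen

namespace Vale.Agent.Potts

noncomputable def MQ (p s x y : ℝ) : ℝ :=
  -(1 - x - y + 2 * x * y) * (3 - 2 * p * s) + 4 - x - y - x * y - 2 * (1 - y) * p -
    2 * (1 - x) * s

noncomputable def MQnum (p s X Y u v : ℝ) : ℝ :=
  -(u * v - X * v - Y * u + 2 * X * Y) * (3 - 2 * p * s) + 4 * u * v - X * v - Y * u - X * Y -
    2 * (v - Y) * u * p - 2 * (u - X) * v * s

theorem MQ_le (p s x y X Y u v : ℝ) (hu : 0 < u) (hv : 0 < v) (hx : x * u = X) (hy : y * v = Y)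
    (h : 0 ≤ MQnum p s X Y u v - u * v / 8) : 1 / 8 ≤ MQ p s x y := by
  subst hx hy
  have e : MQnum p s (x * u) (y * v) u v - u * v / 8 = u * v * (MQ p s x y - 1 / 8) := by
    simp only [MQnum, MQ]; ring
  rw [e] at h
  have := nonneg_of_mul_nonneg_right h (mul_pos hu hv)
  linarith

theorem MQ_corners (p s x y x1 x2 y1 y2 m : ℝ) (hx1 : x1 ≤ x) (hx2 : x ≤ x2) (hy1 : y1 ≤ y)
    (hy2 : y ≤ y2) (h11 : m ≤ MQ p s x1 y1) (h12 : m ≤ MQ p s x1 y2) (h21 : m ≤ MQ p s x2 y1)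
    (h22 : m ≤ MQ p s x2 y2) : m ≤ MQ p s x y := by
  have ex : ∀ x y, MQ p s x y = MQ p s 0 y + (MQ p s 1 y - MQ p s 0 y) * x := by
    intro x y; simp only [MQ]; ring
  have ey : ∀ x y, MQ p s x y = MQ p s x 0 + (MQ p s x 1 - MQ p s x 0) * y := by
    intro x y; simp only [MQ]; ring
  have a1 : m ≤ MQ p s x1 y := by
    rw [ey]; rw [ey] at h11 h12
    exact aff_le _ _ _ _ _ _ hy1 hy2 h11 h12
  have a2 : m ≤ MQ p s x2 y := by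
    rw [ey]; rw [ey] at h21 h22
    exact aff_le _ _ _ _ _ _ hy1 hy2 h21 h22
  rw [ex]; rw [ex] at a1 a2
  exact aff_le _ _ _ _ _ _ hx1 hx2 a1 a2

theorem cq_p2s2_0 (p s : ℝ) (ha : -5 / 14 ≤ p) (hb : p ≤ 0) (hc : -1 / 2 ≤ s) (hd : s ≤ 1 / 4) :
    1 / 8 ≤ MQ p s (p ^ 2) (s ^ 2) := by
  have hpL : 0 < 3 * (5 / 7) - 2 * p := by linarith
  have hsM : 0 < 3 * (1) - 2 * s := by linarith
  obtain ⟨a, haa⟩ : ∃ a, a = p - (-5 / 14) := ⟨_, rfl⟩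
  obtain ⟨b, hbb⟩ : ∃ b, b = (0) - p := ⟨_, rfl⟩
  obtain ⟨c, hcc⟩ : ∃ c, c = s - (-1 / 2) := ⟨_, rfl⟩
  obtain ⟨d, hdd⟩ : ∃ d, d = (1 / 4) - s := ⟨_, rfl⟩
  have a0 : 0 ≤ a := by rw [haa]; linarith
  have b0 : 0 ≤ b := by rw [hbb]; linarith
  have c0 : 0 ≤ c := by rw [hcc]; linarith
  have d0 : 0 ≤ d := by rw [hdd]; linarith
  have key : MQnum p s (p ^ 2) (s ^ 2) 1 1 - 1 * 1 / 8 = 19904 / 125 * (b ^ 3 * d ^ 3) +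
      433712 / 1125 * (b ^ 3 * c * d ^ 2) +
      316672 / 1125 * (b ^ 3 * c ^ 2 * d) +
      75236 / 1125 * (b ^ 3 * c ^ 3) +
      505568 / 1125 * (a * b ^ 2 * d ^ 3) +
      362432 / 375 * (a * b ^ 2 * c * d ^ 2) +
      236152 / 375 * (a * b ^ 2 * c ^ 2 * d) +
      162008 / 1125 * (a * b ^ 2 * c ^ 3) +
      464128 / 1125 * (a ^ 2 * b * d ^ 3) +
      98784 / 125 * (a ^ 2 * b * c * d ^ 2) +
      174832 / 375 * (a ^ 2 * b * c ^ 2 * d) +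
      117208 / 1125 * (a ^ 2 * b * c ^ 3) +
      417088 / 3375 * (a ^ 3 * d ^ 3) +
      241472 / 1125 * (a ^ 3 * c * d ^ 2) +
      43904 / 375 * (a ^ 3 * c ^ 2 * d) +
      87808 / 3375 * (a ^ 3 * c ^ 3) := by
    rw [haa, hbb, hcc, hdd]
    simp only [MQnum]
    ring
  refine MQ_le p s _ _ (p ^ 2) (s ^ 2) 1 1 (by norm_num) (by norm_num) (by ring) (by ring) ?_
  rw [key]
  positivity

theorem cq_p2s2_1 (p s : ℝ) (ha : -5 / 14 ≤ p) (hb : p ≤ 0) (hc : 1 / 4 ≤ s) (hd : s ≤ 1) :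
    1 / 8 ≤ MQ p s (p ^ 2) (s ^ 2) := by
  have hpL : 0 < 3 * (5 / 7) - 2 * p := by linarith
  have hsM : 0 < 3 * (1) - 2 * s := by linarith
  obtain ⟨a, haa⟩ : ∃ a, a = p - (-5 / 14) := ⟨_, rfl⟩
  obtain ⟨b, hbb⟩ : ∃ b, b = (0) - p := ⟨_, rfl⟩
  obtain ⟨c, hcc⟩ : ∃ c, c = s - (1 / 4) := ⟨_, rfl⟩
  obtain ⟨d, hdd⟩ : ∃ d, d = (1) - s := ⟨_, rfl⟩
  have a0 : 0 ≤ a := by rw [haa]; linarith
  have b0 : 0 ≤ b := by rw [hbb]; linarith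
  have c0 : 0 ≤ c := by rw [hcc]; linarith
  have d0 : 0 ≤ d := by rw [hdd]; linarith
  have key : MQnum p s (p ^ 2) (s ^ 2) 1 1 - 1 * 1 / 8 = 75236 / 1125 * (b ^ 3 * d ^ 3) +
      134744 / 1125 * (b ^ 3 * c * d ^ 2) +
      69856 / 1125 * (b ^ 3 * c ^ 2 * d) +
      23488 / 1125 * (b ^ 3 * c ^ 3) +
      162008 / 1125 * (a * b ^ 2 * d ^ 3) +
      29288 / 125 * (a * b ^ 2 * c * d ^ 2) +
      21952 / 125 * (a * b ^ 2 * c ^ 2 * d) +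
      131264 / 1125 * (a * b ^ 2 * c ^ 3) +
      117208 / 1125 * (a ^ 2 * b * d ^ 3) +
      59584 / 375 * (a ^ 2 * b * c * d ^ 2) +
      21952 / 125 * (a ^ 2 * b * c ^ 2 * d) +
      153664 / 1125 * (a ^ 2 * b * c ^ 3) +
      87808 / 3375 * (a ^ 3 * d ^ 3) +
      43904 / 1125 * (a ^ 3 * c * d ^ 2) +
      21952 / 375 * (a ^ 3 * c ^ 2 * d) +
      153664 / 3375 * (a ^ 3 * c ^ 3) := by
    rw [haa, hbb, hcc, hdd]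
    simp only [MQnum]
    ring
  refine MQ_le p s _ _ (p ^ 2) (s ^ 2) 1 1 (by norm_num) (by norm_num) (by ring) (by ring) ?_
  rw [key]
  positivity

theorem cq_p2s2_2 (p s : ℝ) (ha : 0 ≤ p) (hb : p ≤ 5 / 7) (hc : -1 / 2 ≤ s) (hd : s ≤ 1 / 4) :
    1 / 8 ≤ MQ p s (p ^ 2) (s ^ 2) := by
  have hpL : 0 < 3 * (5 / 7) - 2 * p := by linarith
  have hsM : 0 < 3 * (1) - 2 * s := by linarith
  obtain ⟨a, haa⟩ : ∃ a, a = p - (0) := ⟨_, rfl⟩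
  obtain ⟨b, hbb⟩ : ∃ b, b = (5 / 7) - p := ⟨_, rfl⟩
  obtain ⟨c, hcc⟩ : ∃ c, c = s - (-1 / 2) := ⟨_, rfl⟩
  obtain ⟨d, hdd⟩ : ∃ d, d = (1 / 4) - s := ⟨_, rfl⟩
  have a0 : 0 ≤ a := by rw [haa]; linarith
  have b0 : 0 ≤ b := by rw [hbb]; linarith
  have c0 : 0 ≤ c := by rw [hcc]; linarith
  have d0 : 0 ≤ d := by rw [hdd]; linarith
  have key : MQnum p s (p ^ 2) (s ^ 2) 1 1 - 1 * 1 / 8 = 52136 / 3375 * (b ^ 3 * d ^ 3) +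
      30184 / 1125 * (b ^ 3 * c * d ^ 2) +
      5488 / 375 * (b ^ 3 * c ^ 2 * d) +
      10976 / 3375 * (b ^ 3 * c ^ 3) +
      40376 / 1125 * (a * b ^ 2 * d ^ 3) +
      5488 / 125 * (a * b ^ 2 * c * d ^ 2) +
      5684 / 375 * (a * b ^ 2 * c ^ 2 * d) +
      3626 / 1125 * (a * b ^ 2 * c ^ 3) +
      25816 / 1125 * (a ^ 2 * b * d ^ 3) +
      8344 / 375 * (a ^ 2 * b * c * d ^ 2) +
      4004 / 375 * (a ^ 2 * b * c ^ 2 * d) +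
      3976 / 1125 * (a ^ 2 * b * c ^ 3) +
      1384 / 375 * (a ^ 3 * d ^ 3) +
      11824 / 1125 * (a ^ 3 * c * d ^ 2) +
      10424 / 1125 * (a ^ 3 * c ^ 2 * d) +
      2842 / 1125 * (a ^ 3 * c ^ 3) := by
    rw [haa, hbb, hcc, hdd]
    simp only [MQnum]
    ring
  refine MQ_le p s _ _ (p ^ 2) (s ^ 2) 1 1 (by norm_num) (by norm_num) (by ring) (by ring) ?_
  rw [key]
  positivity

theorem cq_p2s2_3 (p s : ℝ) (ha : 0 ≤ p) (hb : p ≤ 5 / 7) (hc : 1 / 4 ≤ s) (hd : s ≤ 1) :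
    1 / 8 ≤ MQ p s (p ^ 2) (s ^ 2) := by
  have hpL : 0 < 3 * (5 / 7) - 2 * p := by linarith
  have hsM : 0 < 3 * (1) - 2 * s := by linarith
  obtain ⟨a, haa⟩ : ∃ a, a = p - (0) := ⟨_, rfl⟩
  obtain ⟨b, hbb⟩ : ∃ b, b = (5 / 7) - p := ⟨_, rfl⟩
  obtain ⟨c, hcc⟩ : ∃ c, c = s - (1 / 4) := ⟨_, rfl⟩
  obtain ⟨d, hdd⟩ : ∃ d, d = (1) - s := ⟨_, rfl⟩
  have a0 : 0 ≤ a := by rw [haa]; linarith
  have b0 : 0 ≤ b := by rw [hbb]; linarith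
  have c0 : 0 ≤ c := by rw [hcc]; linarith
  have d0 : 0 ≤ d := by rw [hdd]; linarith
  have key : MQnum p s (p ^ 2) (s ^ 2) 1 1 - 1 * 1 / 8 = 10976 / 3375 * (b ^ 3 * d ^ 3) +
      5488 / 1125 * (b ^ 3 * c * d ^ 2) +
      2744 / 375 * (b ^ 3 * c ^ 2 * d) +
      19208 / 3375 * (b ^ 3 * c ^ 3) +
      3626 / 1125 * (a * b ^ 2 * d ^ 3) +
      1568 / 375 * (a * b ^ 2 * c * d ^ 2) +
      2744 / 125 * (a * b ^ 2 * c ^ 2 * d) +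
      19208 / 1125 * (a * b ^ 2 * c ^ 3) +
      3976 / 1125 * (a ^ 2 * b * d ^ 3) +
      1316 / 125 * (a ^ 2 * b * c * d ^ 2) +
      2744 / 125 * (a ^ 2 * b * c ^ 2 * d) +
      8008 / 1125 * (a ^ 2 * b * c ^ 3) +
      2842 / 1125 * (a ^ 3 * d ^ 3) +
      6628 / 1125 * (a ^ 3 * c * d ^ 2) +
      4232 / 1125 * (a ^ 3 * c ^ 2 * d) +
      536 / 1125 * (a ^ 3 * c ^ 3) := by
    rw [haa, hbb, hcc, hdd]
    simp only [MQnum]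
    ring
  refine MQ_le p s _ _ (p ^ 2) (s ^ 2) 1 1 (by norm_num) (by norm_num) (by ring) (by ring) ?_
  rw [key]
  positivity

theorem cq_p2up_0 (p s : ℝ) (ha : -5 / 14 ≤ p) (hb : p ≤ 5 / 7) (hc : -1 / 2 ≤ s) (hd : s ≤ 1) :
    1 / 8 ≤ MQ p s (p ^ 2) ((1) ^ 3 / (3 * (1) - 2 * s)) := by
  have hpL : 0 < 3 * (5 / 7) - 2 * p := by linarith
  have hsM : 0 < 3 * (1) - 2 * s := by linarith
  obtain ⟨a, haa⟩ : ∃ a, a = p - (-5 / 14) := ⟨_, rfl⟩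
  obtain ⟨b, hbb⟩ : ∃ b, b = (5 / 7) - p := ⟨_, rfl⟩
  obtain ⟨c, hcc⟩ : ∃ c, c = s - (-1 / 2) := ⟨_, rfl⟩
  obtain ⟨d, hdd⟩ : ∃ d, d = (1) - s := ⟨_, rfl⟩
  have a0 : 0 ≤ a := by rw [haa]; linarith
  have b0 : 0 ≤ b := by rw [hbb]; linarith
  have c0 : 0 ≤ c := by rw [hcc]; linarith
  have d0 : 0 ≤ d := by rw [hdd]; linarith
  have key : MQnum p s (p ^ 2) ((1) ^ 3) 1 (3 * (1) - 2 * s) - 1 * (3 * (1) - 2 * s) / 8 = 4976 / 1125 * (b ^ 3 * d ^ 2) +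
      7264 / 10125 * (b ^ 3 * c * d) +
      1468 / 10125 * (b ^ 3 * c ^ 2) +
      36824 / 3375 * (a * b ^ 2 * d ^ 2) +
      1964 / 3375 * (a * b ^ 2 * c * d) +
      1756 / 1125 * (a * b ^ 2 * c ^ 2) +
      21664 / 3375 * (a ^ 2 * b * d ^ 2) +
      2788 / 1125 * (a ^ 2 * b * c * d) +
      1868 / 3375 * (a ^ 2 * b * c ^ 2) +
      2768 / 3375 * (a ^ 3 * d ^ 2) +
      3964 / 10125 * (a ^ 3 * c * d) +
      268 / 10125 * (a ^ 3 * c ^ 2) := by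
    rw [haa, hbb, hcc, hdd]
    simp only [MQnum]
    ring
  refine MQ_le p s _ _ (p ^ 2) ((1) ^ 3) 1 (3 * (1) - 2 * s) (by norm_num) (by linarith) (by ring) (by exact div_mul_cancel₀ _ (ne_of_gt hsM)) ?_
  rw [key]
  positivity

theorem cq_ups2_0 (p s : ℝ) (ha : -5 / 14 ≤ p) (hb : p ≤ 5 / 7) (hc : -1 / 2 ≤ s) (hd : s ≤ 1 / 4) :
    1 / 8 ≤ MQ p s ((5 / 7) ^ 3 / (3 * (5 / 7) - 2 * p)) (s ^ 2) := by
  have hpL : 0 < 3 * (5 / 7) - 2 * p := by linarith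
  have hsM : 0 < 3 * (1) - 2 * s := by linarith
  obtain ⟨a, haa⟩ : ∃ a, a = p - (-5 / 14) := ⟨_, rfl⟩
  obtain ⟨b, hbb⟩ : ∃ b, b = (5 / 7) - p := ⟨_, rfl⟩
  obtain ⟨c, hcc⟩ : ∃ c, c = s - (-1 / 2) := ⟨_, rfl⟩
  obtain ⟨d, hdd⟩ : ∃ d, d = (1 / 4) - s := ⟨_, rfl⟩
  have a0 : 0 ≤ a := by rw [haa]; linarith
  have b0 : 0 ≤ b := by rw [hbb]; linarith
  have c0 : 0 ≤ c := by rw [hcc]; linarith
  have d0 : 0 ≤ d := by rw [hdd]; linarith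
  have key : MQnum p s ((5 / 7) ^ 3) (s ^ 2) (3 * (5 / 7) - 2 * p) 1 - (3 * (5 / 7) - 2 * p) * 1 / 8 = 39808 / 2205 * (b ^ 2 * d ^ 3) +
      867424 / 19845 * (b ^ 2 * c * d ^ 2) +
      633344 / 19845 * (b ^ 2 * c ^ 2 * d) +
      21496 / 2835 * (b ^ 2 * c ^ 3) +
      10880 / 1323 * (a * b * d ^ 3) +
      34768 / 3969 * (a * b * c * d ^ 2) +
      18584 / 3969 * (a * b * c ^ 2 * d) +
      844 / 567 * (a * b * c ^ 3) +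
      5536 / 6615 * (a ^ 2 * d ^ 3) +
      47296 / 19845 * (a ^ 2 * c * d ^ 2) +
      41696 / 19845 * (a ^ 2 * c ^ 2 * d) +
      232 / 405 * (a ^ 2 * c ^ 3) := by
    rw [haa, hbb, hcc, hdd]
    simp only [MQnum]
    ring
  refine MQ_le p s _ _ ((5 / 7) ^ 3) (s ^ 2) (3 * (5 / 7) - 2 * p) 1 (by linarith) (by norm_num) (by exact div_mul_cancel₀ _ (ne_of_gt hpL)) (by ring) ?_
  rw [key]
  positivity

theorem cq_ups2_1 (p s : ℝ) (ha : -5 / 14 ≤ p) (hb : p ≤ 5 / 7) (hc : 1 / 4 ≤ s) (hd : s ≤ 1) :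
    1 / 8 ≤ MQ p s ((5 / 7) ^ 3 / (3 * (5 / 7) - 2 * p)) (s ^ 2) := by
  have hpL : 0 < 3 * (5 / 7) - 2 * p := by linarith
  have hsM : 0 < 3 * (1) - 2 * s := by linarith
  obtain ⟨a, haa⟩ : ∃ a, a = p - (-5 / 14) := ⟨_, rfl⟩
  obtain ⟨b, hbb⟩ : ∃ b, b = (5 / 7) - p := ⟨_, rfl⟩
  obtain ⟨c, hcc⟩ : ∃ c, c = s - (1 / 4) := ⟨_, rfl⟩
  obtain ⟨d, hdd⟩ : ∃ d, d = (1) - s := ⟨_, rfl⟩
  have a0 : 0 ≤ a := by rw [haa]; linarith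
  have b0 : 0 ≤ b := by rw [hbb]; linarith
  have c0 : 0 ≤ c := by rw [hcc]; linarith
  have d0 : 0 ≤ d := by rw [hdd]; linarith
  have key : MQnum p s ((5 / 7) ^ 3) (s ^ 2) (3 * (5 / 7) - 2 * p) 1 - (3 * (5 / 7) - 2 * p) * 1 / 8 = 21496 / 2835 * (b ^ 2 * d ^ 3) +
      269488 / 19845 * (b ^ 2 * c * d ^ 2) +
      139712 / 19845 * (b ^ 2 * c ^ 2 * d) +
      46976 / 19845 * (b ^ 2 * c ^ 3) +
      844 / 567 * (a * b * d ^ 3) +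
      16864 / 3969 * (a * b * c * d ^ 2) +
      31328 / 3969 * (a * b * c ^ 2 * d) +
      9824 / 3969 * (a * b * c ^ 3) +
      232 / 405 * (a ^ 2 * d ^ 3) +
      26512 / 19845 * (a ^ 2 * c * d ^ 2) +
      16928 / 19845 * (a ^ 2 * c ^ 2 * d) +
      2144 / 19845 * (a ^ 2 * c ^ 3) := by
    rw [haa, hbb, hcc, hdd]
    simp only [MQnum]
    ring
  refine MQ_le p s _ _ ((5 / 7) ^ 3) (s ^ 2) (3 * (5 / 7) - 2 * p) 1 (by linarith) (by norm_num) (by exact div_mul_cancel₀ _ (ne_of_gt hpL)) (by ring) ?_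
  rw [key]
  positivity

theorem cq_upup_0 (p s : ℝ) (ha : -5 / 14 ≤ p) (hb : p ≤ 5 / 7) (hc : -1 / 2 ≤ s) (hd : s ≤ 1) :
    1 / 8 ≤ MQ p s ((5 / 7) ^ 3 / (3 * (5 / 7) - 2 * p)) ((1) ^ 3 / (3 * (1) - 2 * s)) := by
  have hpL : 0 < 3 * (5 / 7) - 2 * p := by linarith
  have hsM : 0 < 3 * (1) - 2 * s := by linarith
  obtain ⟨a, haa⟩ : ∃ a, a = p - (-5 / 14) := ⟨_, rfl⟩
  obtain ⟨b, hbb⟩ : ∃ b, b = (5 / 7) - p := ⟨_, rfl⟩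
  obtain ⟨c, hcc⟩ : ∃ c, c = s - (-1 / 2) := ⟨_, rfl⟩
  obtain ⟨d, hdd⟩ : ∃ d, d = (1) - s := ⟨_, rfl⟩
  have a0 : 0 ≤ a := by rw [haa]; linarith
  have b0 : 0 ≤ b := by rw [hbb]; linarith
  have c0 : 0 ≤ c := by rw [hcc]; linarith
  have d0 : 0 ≤ d := by rw [hdd]; linarith
  have key : MQnum p s ((5 / 7) ^ 3) ((1) ^ 3) (3 * (5 / 7) - 2 * p) (3 * (1) - 2 * s) - (3 * (5 / 7) - 2 * p) * (3 * (1) - 2 * s) / 8 = 9952 / 735 * (b ^ 2 * d ^ 2) +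
      14528 / 6615 * (b ^ 2 * c * d) +
      2936 / 6615 * (b ^ 2 * c ^ 2) +
      2720 / 441 * (a * b * d ^ 2) +
      3302 / 1323 * (a * b * c * d) +
      614 / 1323 * (a * b * c ^ 2) +
      1384 / 2205 * (a ^ 2 * d ^ 2) +
      1982 / 6615 * (a ^ 2 * c * d) +
      134 / 6615 * (a ^ 2 * c ^ 2) := by
    rw [haa, hbb, hcc, hdd]
    simp only [MQnum]
    ring
  refine MQ_le p s _ _ ((5 / 7) ^ 3) ((1) ^ 3) (3 * (5 / 7) - 2 * p) (3 * (1) - 2 * s) (by linarith) (by linarith) (by exact div_mul_cancel₀ _ (ne_of_gt hpL)) (by exact div_mul_cancel₀ _ (ne_of_gt hsM)) ?_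
  rw [key]
  positivity

theorem hMQ (p s x y : ℝ) (h1 : -(5 / 7 / 2) ≤ p) (h2 : p ≤ 5 / 7) (h3 : -(1 / 2) ≤ s) (h4 : s ≤ 1)
    (h5 : p ^ 2 ≤ x) (h6 : x * (3 * (5 / 7) - 2 * p) ≤ (5 / 7) ^ 3) (h7 : s ^ 2 ≤ y)
    (h8 : y * (3 * 1 - 2 * s) ≤ 1 ^ 3) : 1 / 8 ≤ MQ p s x y := by
  have hpL : 0 < 3 * (5 / 7) - 2 * p := by linarith
  have hsM : 0 < 3 * 1 - 2 * s := by linarith
  refine MQ_corners p s x y (p ^ 2) ((5 / 7) ^ 3 / (3 * (5 / 7) - 2 * p)) (s ^ 2)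
    ((1) ^ 3 / (3 * (1) - 2 * s)) _ h5 ((le_div_iff₀ hpL).2 h6) h7 ((le_div_iff₀ hsM).2 h8) ?_ ?_ ?_ ?_
  · rcases le_total p 0 with hp | hp
    · rcases le_total s (1/4) with hs | hs
      · exact cq_p2s2_0 p s (by linarith) hp (by linarith) hs
      · exact cq_p2s2_1 p s (by linarith) hp hs h4
    · rcases le_total s (1/4) with hs | hs
      · exact cq_p2s2_2 p s hp h2 (by linarith) hs
      · exact cq_p2s2_3 p s hp h2 hs h4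
  · exact cq_p2up_0 p s (by linarith) h2 (by linarith) h4
  · rcases le_total s (1/4) with hs | hs
    · exact cq_ups2_0 p s (by linarith) h2 (by linarith) hs
    · exact cq_ups2_1 p s (by linarith) h2 hs h4
  · exact cq_upup_0 p s (by linarith) h2 (by linarith) h4

end Vale.Agent.Potts
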