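import Mathlib
import Vale.Agent.Potts.PwrGen

namespace Vale.Agent.Potts

open Finset

theorem rot_sumF (Z1 Z2 Z3 E1 E2 E3 N : ℝ) (h1 : 0 < Z1) (h2 : 0 < Z2) (h3 : 0 < Z3)
    (hs : Z1 + Z2 + Z3 = 3)
    (hE : E1 * Z2 * Z3 + E2 * Z1 * Z3 + E3 * Z1 * Z2 = 9 * N) :
    (Z1 - E1 / (3 * Z1)) + (Z2 - E2 / (3 * Z2)) + (Z3 - E3 / (3 * Z3)) =
      3 - 3 * (N / (Z1 * Z2 * Z3)) := by
  have e2 : E1 / (3 * Z1) + E2 / (3 * Z2) + E3 / (3 * Z3)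
      = (E1 * Z2 * Z3 + E2 * Z1 * Z3 + E3 * Z1 * Z2) / (3 * (Z1 * Z2 * Z3)) := by
    field_simp
  rw [hE] at e2
  have e3 : 9 * N / (3 * (Z1 * Z2 * Z3)) = 3 * (N / (Z1 * Z2 * Z3)) := by
    field_simp
    ring
  rw [e3] at e2
  linarith

theorem Ff_scaled (k u0 u1 u2 : ℝ) (hk : 0 < k) (hZ : 0 < (u0 + u1 + u2) / 3) :
    Ff ![k * u0, k * u1, k * u2] = k * ((u0 + u1 + u2) / 3 -
      (u0 * u1 + u1 * u2 + u0 * u2) / (3 * ((u0 + u1 + u2) / 3))) := by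
  have h1 : Ff ![k * u0, k * u1, k * u2] =
      (k * u0 + k * u1 + k * u2) / 3 -
        (k * u0 * (k * u1) + k * u1 * (k * u2) + k * u0 * (k * u2)) /
          (3 * ((k * u0 + k * u1 + k * u2) / 3)) := by
    simp [Ff, pp, Matrix.cons_val_two]
  have h2 : (k * u0 + k * u1 + k * u2) / 3 = k * ((u0 + u1 + u2) / 3) := by ring
  rw [h1, h2]
  generalize (u0 + u1 + u2) / 3 = Z at *
  field_simp

theorem prod_eq (a0 a1 b0 b1 : ℝ) (Dp Dm Va Vb : ℝ)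
    (hDD : Dp + Dm = 2 * (1 - 3 * (xx a0 a1 * xx b0 b1) + 2 * (rr a0 a1 * rr b0 b1)))
    (hJ : Dp - Dm = Va * Vb / 27)
    (hVa : 108 * (xx a0 a1 ^ 3 - rr a0 a1 ^ 2) = Va ^ 2)
    (hVb : 108 * (xx b0 b1 ^ 3 - rr b0 b1 ^ 2) = Vb ^ 2) :
      Dp * Dm = (1 - 3 * (xx a0 a1 * xx b0 b1) + 2 * (rr a0 a1 * rr b0 b1)) ^ 2 -
      4 * ((xx a0 a1 ^ 3 - rr a0 a1 ^ 2) * (xx b0 b1 ^ 3 - rr b0 b1 ^ 2)) := by
  have q1 : 4 * (Dp * Dm) = (Dp + Dm) ^ 2 - (Dp - Dm) ^ 2 := by ring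
  rw [hDD, hJ] at q1
  have q2 : (Va * Vb / 27) ^ 2 = 16 * ((xx a0 a1 ^ 3 - rr a0 a1 ^ 2) *
      (xx b0 b1 ^ 3 - rr b0 b1 ^ 2)) := by
    have q3 : (Va * Vb / 27) ^ 2 = Va ^ 2 * Vb ^ 2 / 729 := by ring
    rw [q3, ← hVa, ← hVb]; ring
  rw [q2] at q1
  linarith

end Vale.Agent.Potts
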