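import Mathlib
import Vale.Agent.Potts.All
import Vale.Agent.Potts.PwqCore
import Vale.Agent.Potts.PwqCert

namespace Vale.Agent.Potts

open Finset

theorem MQ_eq (x y p s : ℝ) :
    (1 - 3 * (x * y) + 2 * ((x * p) * (y * s))) * (1 - x - y + 2 * (x * y)) -
      NN x y (x * p) (y * s) = x * y * MQ p s x y := by
  simp only [NN, MQ]
  ring

theorem D0_geq (x y p s : ℝ) (h1 : -(5 / 7 / 2) ≤ p) (h2 : p ≤ 5 / 7) (h3 : -(1 / 2) ≤ s)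
    (h4 : s ≤ 1) (hx0 : 0 ≤ x) (hy0 : 0 ≤ y) (h6 : x * (3 * (5 / 7) - 2 * p) ≤ (5 / 7) ^ 3)
    (h8 : y * (3 * 1 - 2 * s) ≤ 1 ^ 3) :
    19 / 100 ≤ 1 - 3 * (x * y) + 2 * ((x * p) * (y * s)) := by
  have q1 : 0 < 3 * (5 / 7) - 2 * p := by linarith
  have q2 : 0 < 3 * 1 - 2 * s := by linarith
  have hps : 0 ≤ 3 - 2 * p * s := ps_le p s (by linarith) h4 (by linarith) (by linarith)
  have q3 : x * (3 * (5 / 7) - 2 * p) * (y * (3 * 1 - 2 * s)) ≤ (5 / 7) ^ 3 * 1 ^ 3 :=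
    mul_le_mul h6 h8 (by positivity) (by positivity)
  have k1 := mul_nonneg (sub_nonneg.2 h1) (sub_nonneg.2 h3)
  have k2 := mul_nonneg (sub_nonneg.2 h1) (sub_nonneg.2 h4)
  have k3 := mul_nonneg (sub_nonneg.2 h2) (sub_nonneg.2 h3)
  have k4 := mul_nonneg (sub_nonneg.2 h2) (sub_nonneg.2 h4)
  have q0 : (5 / 7 : ℝ) ^ 3 * 1 ^ 3 * (3 - 2 * p * s) ≤
      81 / 100 * ((3 * (5 / 7) - 2 * p) * (3 * 1 - 2 * s)) := by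
    nlinarith
  have q4 : (x * y * (3 - 2 * p * s)) * ((3 * (5 / 7) - 2 * p) * (3 * 1 - 2 * s)) ≤
      81 / 100 * ((3 * (5 / 7) - 2 * p) * (3 * 1 - 2 * s)) := by
    have := mul_le_mul_of_nonneg_right q3 hps
    linarith
  have q5 : x * y * (3 - 2 * p * s) ≤ 81 / 100 :=
    le_of_mul_le_mul_right q4 (by positivity)
  have : 1 - 3 * (x * y) + 2 * ((x * p) * (y * s)) = 1 - x * y * (3 - 2 * p * s) := by ring
  linarith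

theorem mainq (N V D0 J x y k : ℝ) (hKe : D0 * V - N = x * y * k) (hk : 1 / 8 ≤ k)
    (hx0 : 0 ≤ x) (hy0 : 0 ≤ y) (hD0 : 19 / 100 ≤ D0) (hV0 : 0 ≤ V) (hV1 : V ≤ 1) (hJ0 : 0 ≤ J)
    (hJle : 4 * J ≤ 23 / 1000 * (x * y)) : N * D0 ≤ V * (D0 ^ 2 - 4 * J) := by
  have q0 : V * (D0 ^ 2 - 4 * J) - N * D0 = D0 * (x * y * k) - 4 * J * V := by
    rw [← hKe]; ring
  have q1 : 4 * J * V ≤ 4 * J := by nlinarith
  have hxy : 0 ≤ x * y := by positivity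
  have q3 : x * y * (1 / 8) ≤ x * y * k := mul_le_mul_of_nonneg_left hk hxy
  have q4 : 19 / 100 * (x * y * (1 / 8)) ≤ D0 * (x * y * k) :=
    mul_le_mul hD0 q3 (by positivity) (by linarith)
  linarith

theorem pwq_alg (x y p s Dp Dm S1 S2 : ℝ)
    (hpx : p ^ 2 ≤ x) (hxp : x * (3 * (5 / 7) - 2 * p) ≤ (5 / 7) ^ 3) (hp0 : -(5 / 7 / 2) ≤ p)
    (hpL : p ≤ 5 / 7) (hx0 : 0 ≤ x) (hxL : x ≤ (5 / 7) ^ 2)
    (hsy : s ^ 2 ≤ y) (hys : y * (3 * 1 - 2 * s) ≤ 1 ^ 3) (hs0 : -(1 / 2) ≤ s) (hsM : s ≤ 1)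
    (hy0 : 0 ≤ y) (hyM : y ≤ 1 ^ 2) (hPp : 0 < Dp) (hPm : 0 < Dm)
    (hJa : 0 ≤ x ^ 3 - (x * p) ^ 2) (hJb : 0 ≤ y ^ 3 - (y * s) ^ 2)
    (hDD : Dp + Dm = 2 * (1 - 3 * (x * y) + 2 * ((x * p) * (y * s))))
    (hprod : Dp * Dm = (1 - 3 * (x * y) + 2 * ((x * p) * (y * s))) ^ 2 -
      4 * ((x ^ 3 - (x * p) ^ 2) * (y ^ 3 - (y * s) ^ 2)))
    (R1 : S1 = 3 - 3 * (NN x y (x * p) (y * s) / Dp))
    (R2 : S2 = 3 - 3 * (NN x y (x * p) (y * s) / Dm)) :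
    x + y - 2 * (x * y) ≤ (S1 + S2) / 6 := by
  have hka := kappa (5 / 7) x p (by norm_num) hx0 hxL hxp
  have hkb := kappa 1 y s (by norm_num) hy0 hyM hys
  have hM := hMQ p s x y hp0 hpL hs0 hsM hpx hxp hsy hys
  have hD := D0_geq x y p s hp0 hpL hs0 hsM hx0 hy0 hxp hys
  have hKe := MQ_eq x y p s
  obtain ⟨D0, hD0⟩ : ∃ D0, D0 = 1 - 3 * (x * y) + 2 * ((x * p) * (y * s)) := ⟨_, rfl⟩
  obtain ⟨N, hN⟩ : ∃ N, N = NN x y (x * p) (y * s) := ⟨_, rfl⟩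
  obtain ⟨J, hJdef⟩ : ∃ J, J = (x ^ 3 - (x * p) ^ 2) * (y ^ 3 - (y * s) ^ 2) := ⟨_, rfl⟩
  rw [← hD0] at hDD hprod hD
  rw [← hD0, ← hN] at hKe
  rw [← hJdef] at hprod
  rw [← hN] at R1 R2
  have hx1 : x ≤ 1 := by norm_num at hxL; linarith
  have hy1 : y ≤ 1 := by norm_num at hyM; linarith
  have hV0 : 0 ≤ 1 - x - y + 2 * (x * y) := by
    nlinarith [mul_nonneg (sub_nonneg.2 hx1) (sub_nonneg.2 hy1), mul_nonneg hx0 hy0]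
  have hV1 : 1 - x - y + 2 * (x * y) ≤ 1 := by
    nlinarith [mul_nonneg hx0 (sub_nonneg.2 hy1), mul_nonneg hy0 (sub_nonneg.2 hx1)]
  have hJ0 : 0 ≤ J := by rw [hJdef]; exact mul_nonneg hJa hJb
  have hJle : 4 * J ≤ 23 / 1000 * (x * y) := by
    have q1 : J ≤ ((5 / 7) ^ 4 / 7 * x) * (1 ^ 4 / 7 * y) := by
      rw [hJdef]; exact mul_le_mul hka hkb hJb (by positivity)
    have q2 : 0 ≤ x * y := mul_nonneg hx0 hy0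
    have q3 : ((5 / 7 : ℝ) ^ 4 / 7 * x) * (1 ^ 4 / 7 * y) = (5 / 7) ^ 4 / 49 * (x * y) := by ring
    rw [q3] at q1
    have q4 : (4 : ℝ) * ((5 / 7) ^ 4 / 49) ≤ 23 / 1000 := by norm_num
    nlinarith
  have main := mainq N _ D0 J x y _ hKe hM hx0 hy0 hD hV0 hV1 hJ0 hJle
  have hpm : 0 < Dp * Dm := mul_pos hPp hPm
  have fin : N / Dp + N / Dm ≤ 2 * (1 - x - y + 2 * (x * y)) := by
    have q1 : N / Dp + N / Dm = N * (Dp + Dm) / (Dp * Dm) := by field_simp; ring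
    rw [q1, div_le_iff₀ hpm, hDD, hprod]
    linarith
  rw [R1, R2]
  linarith

/-- normalised inequality -/
theorem pwq_norm (a0 a1 b0 b1 : ℝ) (ha0 : 1 - 5 / 7 ≤ a0) (ha1 : 1 - 5 / 7 ≤ a1)
    (ha2 : 1 - 5 / 7 ≤ 3 - a0 - a1) (pb0 : 0 < b0) (pb1 : 0 < b1) (pb2 : 0 < 3 - b0 - b1)
    (T : ℝ → ℝ → ℝ) (hT : ∀ Z E, T Z E = Z - E / (3 * Z)) :
    xx a0 a1 + xx b0 b1 - 2 * (xx a0 a1 * xx b0 b1) ≤
      ((T (zz a0 a1 (3-a0-a1) b0 b1 (3-b0-b1)) (ee a0 a1 (3-a0-a1) b0 b1 (3-b0-b1)) +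
        T (zz a0 a1 (3-a0-a1) b1 (3-b0-b1) b0) (ee a0 a1 (3-a0-a1) b1 (3-b0-b1) b0) +
        T (zz a0 a1 (3-a0-a1) (3-b0-b1) b0 b1) (ee a0 a1 (3-a0-a1) (3-b0-b1) b0 b1)) +
       (T (zz a0 a1 (3-a0-a1) b1 b0 (3-b0-b1)) (ee a0 a1 (3-a0-a1) b1 b0 (3-b0-b1)) +
        T (zz a0 a1 (3-a0-a1) b0 (3-b0-b1) b1) (ee a0 a1 (3-a0-a1) b0 (3-b0-b1) b1) +
        T (zz a0 a1 (3-a0-a1) (3-b0-b1) b1 b0) (ee a0 a1 (3-a0-a1) (3-b0-b1) b1 b0))) / 6 := by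
  have pa0 : 0 < a0 := by linarith
  have pa1 : 0 < a1 := by linarith
  have pa2 : 0 < 3 - a0 - a1 := by linarith
  have hx' : xx b1 b0 = xx b0 b1 := by simp only [xx]; ring
  have hr' : rr b1 b0 = rr b0 b1 := by simp only [rr, xx]; ring
  have e2 : 3 - b1 - b0 = 3 - b0 - b1 := by ring
  have zpos : ∀ c0 c1 c2 : ℝ, 0 < c0 → 0 < c1 → 0 < c2 → 0 < zz a0 a1 (3-a0-a1) c0 c1 c2 := by
    intro c0 c1 c2 h0 h1 h2
    simp only [zz]; positivity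
  have R1 := rot_sumF (zz a0 a1 (3-a0-a1) b0 b1 (3-b0-b1)) (zz a0 a1 (3-a0-a1) b1 (3-b0-b1) b0)
    (zz a0 a1 (3-a0-a1) (3-b0-b1) b0 b1) (ee a0 a1 (3-a0-a1) b0 b1 (3-b0-b1))
    (ee a0 a1 (3-a0-a1) b1 (3-b0-b1) b0) (ee a0 a1 (3-a0-a1) (3-b0-b1) b0 b1)
    (NN (xx a0 a1) (xx b0 b1) (rr a0 a1) (rr b0 b1))
    (zpos _ _ _ pb0 pb1 pb2) (zpos _ _ _ pb1 pb2 pb0) (zpos _ _ _ pb2 pb0 pb1)
    (by simp only [zz]; ring) (idN a0 a1 b0 b1)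
  have R2 := rot_sumF (zz a0 a1 (3-a0-a1) b1 b0 (3-b0-b1)) (zz a0 a1 (3-a0-a1) b0 (3-b0-b1) b1)
    (zz a0 a1 (3-a0-a1) (3-b0-b1) b1 b0) (ee a0 a1 (3-a0-a1) b1 b0 (3-b0-b1))
    (ee a0 a1 (3-a0-a1) b0 (3-b0-b1) b1) (ee a0 a1 (3-a0-a1) (3-b0-b1) b1 b0)
    (NN (xx a0 a1) (xx b0 b1) (rr a0 a1) (rr b0 b1))
    (zpos _ _ _ pb1 pb0 pb2) (zpos _ _ _ pb0 pb2 pb1) (zpos _ _ _ pb2 pb1 pb0)
    (by simp only [zz]; ring)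
    (by have h := idN a0 a1 b1 b0; rw [e2, hx', hr'] at h; exact h)
  simp only [← hT] at R1 R2
  have hcomm : zz a0 a1 (3-a0-a1) b1 b0 (3-b0-b1) * zz a0 a1 (3-a0-a1) b0 (3-b0-b1) b1 *
      zz a0 a1 (3-a0-a1) (3-b0-b1) b1 b0 = zz a0 a1 (3-a0-a1) b1 b0 (3-b0-b1) *
      zz a0 a1 (3-a0-a1) (3-b0-b1) b1 b0 * zz a0 a1 (3-a0-a1) b0 (3-b0-b1) b1 := by ring
  rw [hcomm] at R2
  have hDD := idD a0 a1 b0 b1
  have hJ := idJ a0 a1 b0 b1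
  have hVa := idV a0 a1
  have hVb := idV b0 b1
  have hPp : 0 < zz a0 a1 (3-a0-a1) b0 b1 (3-b0-b1) * zz a0 a1 (3-a0-a1) b1 (3-b0-b1) b0 *
      zz a0 a1 (3-a0-a1) (3-b0-b1) b0 b1 :=
    mul_pos (mul_pos (zpos _ _ _ pb0 pb1 pb2) (zpos _ _ _ pb1 pb2 pb0)) (zpos _ _ _ pb2 pb0 pb1)
  have hPm : 0 < zz a0 a1 (3-a0-a1) b1 b0 (3-b0-b1) * zz a0 a1 (3-a0-a1) (3-b0-b1) b1 b0 *
      zz a0 a1 (3-a0-a1) b0 (3-b0-b1) b1 :=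
    mul_pos (mul_pos (zpos _ _ _ pb1 pb0 pb2) (zpos _ _ _ pb2 pb1 pb0)) (zpos _ _ _ pb0 pb2 pb1)
  have hpr := prod_eq a0 a1 b0 b1 _ _ _ _ hDD hJ hVa hVb
  have hJa : 0 ≤ xx a0 a1 ^ 3 - rr a0 a1 ^ 2 := by
    have := sq_nonneg ((a0 - a1) * (a1 - (3-a0-a1)) * ((3-a0-a1) - a0))
    rw [← hVa] at this; linarith
  have hJb : 0 ≤ xx b0 b1 ^ 3 - rr b0 b1 ^ 2 := by
    have := sq_nonneg ((b0 - b1) * (b1 - (3-b0-b1)) * ((3-b0-b1) - b0))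
    rw [← hVb] at this; linarith
  obtain ⟨p, hp, hpx, hxp, hp0, hpL, hx0, hxL⟩ := dom (5 / 7) a0 a1 (by norm_num) ha0 ha1 ha2
  obtain ⟨s, hs, hsy, hys, hs0, hsM, hy0, hyM⟩ := dom 1 b0 b1 (by norm_num) (by linarith)
    (by linarith) (by linarith)
  rw [hp] at R1 R2 hDD hpr hJa
  rw [hs] at R1 R2 hDD hpr hJb
  exact pwq_alg _ _ p s _ _ _ _ hpx hxp hp0 hpL hx0 hxL hsy hys hs0 hsM hy0 hyM hPp hPm hJa hJb
    hDD hpr R1 R2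

theorem pwq : PWq (5/7) := by
  intro a b ha hb
  obtain ⟨hP, ha⟩ := ha
  have hQ : 0 < pp b := by
    have h0 := hb 0
    have h1 := hb 1
    have h2 := hb 2
    simp only [pp]; positivity
  obtain ⟨P, hPd⟩ : ∃ P, P = pp a := ⟨_, rfl⟩
  obtain ⟨Q, hQd⟩ : ∃ Q, Q = pp b := ⟨_, rfl⟩
  rw [← hPd] at hP ha ⊢
  rw [← hQd] at hQ ⊢
  obtain ⟨a0, h0⟩ : ∃ a0, a 0 = P * a0 := ⟨a 0 / P, by field_simp⟩
  obtain ⟨a1, h1⟩ : ∃ a1, a 1 = P * a1 := ⟨a 1 / P, by field_simp⟩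
  obtain ⟨b0, g0⟩ : ∃ b0, b 0 = Q * b0 := ⟨b 0 / Q, by field_simp⟩
  obtain ⟨b1, g1⟩ : ∃ b1, b 1 = Q * b1 := ⟨b 1 / Q, by field_simp⟩
  have h2 : a 2 = P * (3 - a0 - a1) := by
    have : P = (a 0 + a 1 + a 2) / 3 := hPd
    linarith
  have g2 : b 2 = Q * (3 - b0 - b1) := by
    have : Q = (b 0 + b 1 + b 2) / 3 := hQd
    linarith
  have ca : ∀ t i, a i = P * t → 1 - 5 / 7 ≤ t := by
    intro t i h
    have := ha i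
    rw [h] at this
    exact le_of_mul_le_mul_left (by linarith) hP
  have cb : ∀ t i, b i = Q * t → 0 < t := by
    intro t i h
    have := hb i
    rw [h] at this
    exact (mul_pos_iff_of_pos_left hQ).1 this
  have ha0 := ca a0 0 h0
  have ha1 := ca a1 1 h1
  have ha2 := ca _ 2 h2
  have pb0 := cb b0 0 g0
  have pb1 := cb b1 1 g1
  have pb2 := cb _ 2 g2
  have pa0 : 0 < a0 := by linarith
  have pa1 : 0 < a1 := by linarith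
  have pa2 : 0 < 3 - a0 - a1 := by linarith
  have main := pwq_norm a0 a1 b0 b1 ha0 ha1 ha2 pb0 pb1 pb2
    (fun Z E => Z - E / (3 * Z)) (fun _ _ => rfl)
  have fFa : Ff a = P * xx a0 a1 := by
    simp only [Ff, ← hPd, h0, h1, h2, xx]
    field_simp
  have fFb : Ff b = Q * xx b0 b1 := by
    simp only [Ff, ← hQd, g0, g1, g2, xx]
    field_simp
  have term : ∀ c0 c1 c2 : ℝ, 0 < c0 → 0 < c1 → 0 < c2 →
      Ff ![P * a0 * (Q * c0), P * a1 * (Q * c1), P * (3 - a0 - a1) * (Q * c2)] =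
      P * Q * ((zz a0 a1 (3-a0-a1) c0 c1 c2) -
        (ee a0 a1 (3-a0-a1) c0 c1 c2) / (3 * (zz a0 a1 (3-a0-a1) c0 c1 c2))) := by
    intro c0 c1 c2 k0 k1 k2
    have e : ![P * a0 * (Q * c0), P * a1 * (Q * c1), P * (3 - a0 - a1) * (Q * c2)] =
        ![(P * Q) * (a0 * c0), (P * Q) * (a1 * c1), (P * Q) * ((3 - a0 - a1) * c2)] := by
      congr 1
      · ring
      · congr 1
        · ring
        · congr 1
          ring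
    have hZ : 0 < (a0 * c0 + a1 * c1 + (3 - a0 - a1) * c2) / 3 := by positivity
    rw [e, Ff_scaled _ _ _ _ (mul_pos hP hQ) hZ]
    simp only [zz, ee]
  rw [sum_mul3, h0, h1, h2, g0, g1, g2, fFa, fFb,
    term b0 b1 (3-b0-b1) pb0 pb1 pb2,
    term b1 (3-b0-b1) b0 pb1 pb2 pb0, term (3-b0-b1) b0 b1 pb2 pb0 pb1,
    term b1 b0 (3-b0-b1) pb1 pb0 pb2, term (3-b0-b1) b1 b0 pb2 pb1 pb0,
    term b0 (3-b0-b1) b1 pb0 pb2 pb1]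
  have hPQ : 0 < P * Q := mul_pos hP hQ
  have m2 := mul_le_mul_of_nonneg_left main hPQ.le
  linarith

end Vale.Agent.Potts
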