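import Mathlib
import Vale.Agent.Potts.PwrGen

namespace Vale.Agent.Potts

noncomputable def KPnum (p s X Y u v : ℝ) : ℝ :=
  (p + s) * u * v - (3 - 2 * p * s) * (u * v - X * p * v - Y * s * u + X * Y * (p + s)) +
    3 / 2 * (2 * u * v - X * v - Y * u - X * Y) - 3 * ((v - Y) * u * p + (u - X) * v * s) +
    (3 - 2 * p) * (3 - 2 * s) / 2 * (u * v) +
    3 / 2 * (1 - 2 * p * s) * (u - X * (3 - 2 * p)) * (v - Y * (3 - 2 * s))

theorem KP_le (p s x y X Y u v : ℝ) (hu : 0 < u) (hv : 0 < v) (hx : x * u = X) (hy : y * v = Y)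
    (h : 0 ≤ KPnum p s X Y u v - u * v / 10) : 1 / 10 ≤ KP p s x y := by
  subst hx hy
  have e : KPnum p s (x * u) (y * v) u v - u * v / 10 = u * v * (KP p s x y - 1 / 10) := by
    simp only [KPnum, KP]; ring
  rw [e] at h
  have := nonneg_of_mul_nonneg_right h (mul_pos hu hv)
  linarith

theorem cb1_p2s2 (p s a b c d : ℝ) (ha : 0 ≤ a) (hb : 0 ≤ b) (hc : 0 ≤ c) (hd : 0 ≤ d)
    (hp : p = a - (5 / 7) / 2) (hab : b = 3 / 2 * (5 / 7) - a) (hs : s = c - (5 / 7) / 2)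
    (hcd : d = 3 / 2 * (5 / 7) - c) :
    1 / 10 ≤ KP p s (p ^ 2) (s ^ 2) := by
  have hpL : 0 < 3 * (5 / 7) - 2 * p := by linarith
  have hsM : 0 < 3 * (5 / 7) - 2 * s := by linarith
  have key : KPnum p s (p ^ 2) (s ^ 2) 1 1 - 1 * 1 / 10 = 58238271152 / 12814453125 * (b ^ 4 * d ^ 4) +
      222710384108 / 12814453125 * (b ^ 4 * c * d ^ 3) +
      88240353304 / 4271484375 * (b ^ 4 * c ^ 2 * d ^ 2) +
      94590144608 / 12814453125 * (b ^ 4 * c ^ 3 * d) +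
      11366385152 / 12814453125 * (b ^ 4 * c ^ 4) +
      222710384108 / 12814453125 * (a * b ^ 3 * d ^ 4) +
      959459679932 / 12814453125 * (a * b ^ 3 * c * d ^ 3) +
      396481600216 / 4271484375 * (a * b ^ 3 * c ^ 2 * d ^ 2) +
      424389230432 / 12814453125 * (a * b ^ 3 * c ^ 3 * d) +
      58961100608 / 12814453125 * (a * b ^ 3 * c ^ 4) +
      88240353304 / 4271484375 * (a ^ 2 * b ^ 2 * d ^ 4) +
      396481600216 / 4271484375 * (a ^ 2 * b ^ 2 * c * d ^ 3) +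
      110101146608 / 1423828125 * (a ^ 2 * b ^ 2 * c ^ 2 * d ^ 2) +
      98004877216 / 4271484375 * (a ^ 2 * b ^ 2 * c ^ 3 * d) +
      15253434304 / 4271484375 * (a ^ 2 * b ^ 2 * c ^ 4) +
      94590144608 / 12814453125 * (a ^ 3 * b * d ^ 4) +
      424389230432 / 12814453125 * (a ^ 3 * b * c * d ^ 3) +
      98004877216 / 4271484375 * (a ^ 3 * b * c ^ 2 * d ^ 2) +
      93034370432 / 12814453125 * (a ^ 3 * b * c ^ 3 * d) +
      15216324608 / 12814453125 * (a ^ 3 * b * c ^ 4) +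
      11366385152 / 12814453125 * (a ^ 4 * d ^ 4) +
      58961100608 / 12814453125 * (a ^ 4 * c * d ^ 3) +
      15253434304 / 4271484375 * (a ^ 4 * c ^ 2 * d ^ 2) +
      15216324608 / 12814453125 * (a ^ 4 * c ^ 3 * d) +
      1984737152 / 12814453125 * (a ^ 4 * c ^ 4) := by
    subst hab hcd hp hs
    simp only [KPnum]
    ring
  refine KP_le p s _ _ (p ^ 2) (s ^ 2) 1 1 (by norm_num) (by norm_num) (by ring) (by ring) ?_
  rw [key]
  positivity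

theorem cb1_p2up (p s a b c d : ℝ) (ha : 0 ≤ a) (hb : 0 ≤ b) (hc : 0 ≤ c) (hd : 0 ≤ d)
    (hp : p = a - (5 / 7) / 2) (hab : b = 3 / 2 * (5 / 7) - a) (hs : s = c - (5 / 7) / 2)
    (hcd : d = 3 / 2 * (5 / 7) - c) :
    1 / 10 ≤ KP p s (p ^ 2) ((5 / 7) ^ 3 / (3 * (5 / 7) - 2 * s)) := by
  have hpL : 0 < 3 * (5 / 7) - 2 * p := by linarith
  have hsM : 0 < 3 * (5 / 7) - 2 * s := by linarith
  have key : KPnum p s (p ^ 2) ((5 / 7) ^ 3) 1 (3 * (5 / 7) - 2 * s) - 1 * (3 * (5 / 7) - 2 * s) / 10 = 58238271152 / 3906984375 * (b ^ 4 * d ^ 2) +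
      5297826488 / 781396875 * (b ^ 4 * c * d) +
      2841596288 / 3906984375 * (b ^ 4 * c ^ 2) +
      222710384108 / 3906984375 * (a * b ^ 3 * d ^ 2) +
      24167516552 / 781396875 * (a * b ^ 3 * c * d) +
      14740275152 / 3906984375 * (a * b ^ 3 * c ^ 2) +
      88240353304 / 1302328125 * (a ^ 2 * b ^ 2 * d ^ 2) +
      5662915576 / 260465625 * (a ^ 2 * b ^ 2 * c * d) +
      3813358576 / 1302328125 * (a ^ 2 * b ^ 2 * c ^ 2) +
      94590144608 / 3906984375 * (a ^ 3 * b * d ^ 2) +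
      5412534752 / 781396875 * (a ^ 3 * b * c * d) +
      3804081152 / 3906984375 * (a ^ 3 * b * c ^ 2) +
      11366385152 / 3906984375 * (a ^ 4 * d ^ 2) +
      860053088 / 781396875 * (a ^ 4 * c * d) +
      496184288 / 3906984375 * (a ^ 4 * c ^ 2) := by
    subst hab hcd hp hs
    simp only [KPnum]
    ring
  refine KP_le p s _ _ (p ^ 2) ((5 / 7) ^ 3) 1 (3 * (5 / 7) - 2 * s) (by norm_num) (by linarith) (by ring) (by exact div_mul_cancel₀ _ (ne_of_gt hsM)) ?_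
  rw [key]
  positivity

theorem cb1_ups2 (p s a b c d : ℝ) (ha : 0 ≤ a) (hb : 0 ≤ b) (hc : 0 ≤ c) (hd : 0 ≤ d)
    (hp : p = a - (5 / 7) / 2) (hab : b = 3 / 2 * (5 / 7) - a) (hs : s = c - (5 / 7) / 2)
    (hcd : d = 3 / 2 * (5 / 7) - c) :
    1 / 10 ≤ KP p s ((5 / 7) ^ 3 / (3 * (5 / 7) - 2 * p)) (s ^ 2) := by
  have hpL : 0 < 3 * (5 / 7) - 2 * p := by linarith
  have hsM : 0 < 3 * (5 / 7) - 2 * s := by linarith
  have key : KPnum p s ((5 / 7) ^ 3) (s ^ 2) (3 * (5 / 7) - 2 * p) 1 - (3 * (5 / 7) - 2 * p) * 1 / 10 = 58238271152 / 3906984375 * (b ^ 2 * d ^ 4) +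
      222710384108 / 3906984375 * (b ^ 2 * c * d ^ 3) +
      88240353304 / 1302328125 * (b ^ 2 * c ^ 2 * d ^ 2) +
      94590144608 / 3906984375 * (b ^ 2 * c ^ 3 * d) +
      11366385152 / 3906984375 * (b ^ 2 * c ^ 4) +
      5297826488 / 781396875 * (a * b * d ^ 4) +
      24167516552 / 781396875 * (a * b * c * d ^ 3) +
      5662915576 / 260465625 * (a * b * c ^ 2 * d ^ 2) +
      5412534752 / 781396875 * (a * b * c ^ 3 * d) +
      860053088 / 781396875 * (a * b * c ^ 4) +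
      2841596288 / 3906984375 * (a ^ 2 * d ^ 4) +
      14740275152 / 3906984375 * (a ^ 2 * c * d ^ 3) +
      3813358576 / 1302328125 * (a ^ 2 * c ^ 2 * d ^ 2) +
      3804081152 / 3906984375 * (a ^ 2 * c ^ 3 * d) +
      496184288 / 3906984375 * (a ^ 2 * c ^ 4) := by
    subst hab hcd hp hs
    simp only [KPnum]
    ring
  refine KP_le p s _ _ ((5 / 7) ^ 3) (s ^ 2) (3 * (5 / 7) - 2 * p) 1 (by linarith) (by norm_num) (by exact div_mul_cancel₀ _ (ne_of_gt hpL)) (by ring) ?_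
  rw [key]
  positivity

theorem cb1_upup (p s a b c d : ℝ) (ha : 0 ≤ a) (hb : 0 ≤ b) (hc : 0 ≤ c) (hd : 0 ≤ d)
    (hp : p = a - (5 / 7) / 2) (hab : b = 3 / 2 * (5 / 7) - a) (hs : s = c - (5 / 7) / 2)
    (hcd : d = 3 / 2 * (5 / 7) - c) :
    1 / 10 ≤ KP p s ((5 / 7) ^ 3 / (3 * (5 / 7) - 2 * p)) ((5 / 7) ^ 3 / (3 * (5 / 7) - 2 * s)) := by
  have hpL : 0 < 3 * (5 / 7) - 2 * p := by linarith
  have hsM : 0 < 3 * (5 / 7) - 2 * s := by linarith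
  have key : KPnum p s ((5 / 7) ^ 3) ((5 / 7) ^ 3) (3 * (5 / 7) - 2 * p) (3 * (5 / 7) - 2 * s) - (3 * (5 / 7) - 2 * p) * (3 * (5 / 7) - 2 * s) / 10 = 58238271152 / 1191196125 * (b ^ 2 * d ^ 2) +
      5297826488 / 238239225 * (b ^ 2 * c * d) +
      2841596288 / 1191196125 * (b ^ 2 * c ^ 2) +
      5297826488 / 238239225 * (a * b * d ^ 2) +
      313629392 / 47647845 * (a * b * c * d) +
      215013272 / 238239225 * (a * b * c ^ 2) +
      2841596288 / 1191196125 * (a ^ 2 * d ^ 2) +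
      215013272 / 238239225 * (a ^ 2 * c * d) +
      124046072 / 1191196125 * (a ^ 2 * c ^ 2) := by
    subst hab hcd hp hs
    simp only [KPnum]
    ring
  refine KP_le p s _ _ ((5 / 7) ^ 3) ((5 / 7) ^ 3) (3 * (5 / 7) - 2 * p) (3 * (5 / 7) - 2 * s) (by linarith) (by linarith) (by exact div_mul_cancel₀ _ (ne_of_gt hpL)) (by exact div_mul_cancel₀ _ (ne_of_gt hsM)) ?_
  rw [key]
  positivity

theorem hK1 : ∀ p s x y : ℝ, -((5 / 7 : ℝ) / 2) ≤ p → p ≤ 5 / 7 → -((5 / 7 : ℝ) / 2) ≤ s → s ≤ 5 / 7 →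
    p ^ 2 ≤ x → x * (3 * (5 / 7) - 2 * p) ≤ (5 / 7) ^ 3 → s ^ 2 ≤ y →
    y * (3 * (5 / 7) - 2 * s) ≤ (5 / 7) ^ 3 → 1 / 10 ≤ KP p s x y := by
  intro p s x y h1 h2 h3 h4 h5 h6 h7 h8
  have hpL : 0 < 3 * (5 / 7) - 2 * p := by linarith
  have hsM : 0 < 3 * (5 / 7) - 2 * s := by linarith
  refine KP_corners p s x y (p ^ 2) ((5 / 7) ^ 3 / (3 * (5 / 7) - 2 * p)) (s ^ 2)
    ((5 / 7) ^ 3 / (3 * (5 / 7) - 2 * s)) _ h5 ((le_div_iff₀ hpL).2 h6) h7 ((le_div_iff₀ hsM).2 h8) ?_ ?_ ?_ ?_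
  · exact cb1_p2s2 p s (p + (5 / 7) / 2) ((5 / 7) - p) (s + (5 / 7) / 2) ((5 / 7) - s) (by linarith)
      (by linarith) (by linarith) (by linarith) (by ring) (by ring) (by ring) (by ring)
  · exact cb1_p2up p s (p + (5 / 7) / 2) ((5 / 7) - p) (s + (5 / 7) / 2) ((5 / 7) - s) (by linarith)
      (by linarith) (by linarith) (by linarith) (by ring) (by ring) (by ring) (by ring)
  · exact cb1_ups2 p s (p + (5 / 7) / 2) ((5 / 7) - p) (s + (5 / 7) / 2) ((5 / 7) - s) (by linarith)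
      (by linarith) (by linarith) (by linarith) (by ring) (by ring) (by ring) (by ring)
  · exact cb1_upup p s (p + (5 / 7) / 2) ((5 / 7) - p) (s + (5 / 7) / 2) ((5 / 7) - s) (by linarith)
      (by linarith) (by linarith) (by linarith) (by ring) (by ring) (by ring) (by ring)

theorem hD1 : ∀ p s : ℝ, -((5 / 7 : ℝ) / 2) ≤ p → p ≤ 5 / 7 → -((5 / 7 : ℝ) / 2) ≤ s → s ≤ 5 / 7 →
    (5 / 7 : ℝ) ^ 3 * (5 / 7) ^ 3 * (3 - 2 * p * s) ≤ 3 / 5 * ((3 * (5 / 7) - 2 * p) * (3 * (5 / 7) - 2 * s)) := by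
  intro p s h1 h2 h3 h4
  have k1 := mul_nonneg (sub_nonneg.2 h1) (sub_nonneg.2 h3)
  have k2 := mul_nonneg (sub_nonneg.2 h1) (sub_nonneg.2 h4)
  have k3 := mul_nonneg (sub_nonneg.2 h2) (sub_nonneg.2 h3)
  have k4 := mul_nonneg (sub_nonneg.2 h2) (sub_nonneg.2 h4)
  nlinarith

theorem cb2_p2s2 (p s a b c d : ℝ) (ha : 0 ≤ a) (hb : 0 ≤ b) (hc : 0 ≤ c) (hd : 0 ≤ d)
    (hp : p = a - (7 / 12) / 2) (hab : b = 3 / 2 * (7 / 12) - a) (hs : s = c - (9 / 10) / 2)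
    (hcd : d = 3 / 2 * (9 / 10) - c) :
    1 / 10 ≤ KP p s (p ^ 2) (s ^ 2) := by
  have hpL : 0 < 3 * (7 / 12) - 2 * p := by linarith
  have hsM : 0 < 3 * (9 / 10) - 2 * s := by linarith
  have key : KPnum p s (p ^ 2) (s ^ 2) 1 1 - 1 * 1 / 10 = 1695939404 / 425329947 * (b ^ 4 * d ^ 4) +
      63388925552 / 3827969523 * (b ^ 4 * c * d ^ 3) +
      23895939008 / 1275989841 * (b ^ 4 * c ^ 2 * d ^ 2) +
      4543798976 / 1275989841 * (b ^ 4 * c ^ 3 * d) +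
      1498811456 / 3827969523 * (b ^ 4 * c ^ 4) +
      55357925600 / 3827969523 * (a * b ^ 3 * d ^ 4) +
      264625870240 / 3827969523 * (a * b ^ 3 * c * d ^ 3) +
      32095941440 / 425329947 * (a * b ^ 3 * c ^ 2 * d ^ 2) +
      52381086080 / 3827969523 * (a * b ^ 3 * c ^ 3 * d) +
      8762932480 / 3827969523 * (a * b ^ 3 * c ^ 4) +
      22250751200 / 1275989841 * (a ^ 2 * b ^ 2 * d ^ 4) +
      40133056960 / 425329947 * (a ^ 2 * b ^ 2 * c * d ^ 3) +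
      27492275840 / 425329947 * (a ^ 2 * b ^ 2 * c ^ 2 * d ^ 2) +
      14092040960 / 1275989841 * (a ^ 2 * b ^ 2 * c ^ 3 * d) +
      1169361920 / 425329947 * (a ^ 2 * b ^ 2 * c ^ 4) +
      9825924224 / 1275989841 * (a ^ 3 * b * d ^ 4) +
      167923197824 / 3827969523 * (a ^ 3 * b * c * d ^ 3) +
      26878981376 / 1275989841 * (a ^ 3 * b * c ^ 2 * d ^ 2) +
      5865068032 / 1275989841 * (a ^ 3 * b * c ^ 3 * d) +
      4401277952 / 3827969523 * (a ^ 3 * b * c ^ 4) +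
      4301416640 / 3827969523 * (a ^ 4 * d ^ 4) +
      27150384640 / 3827969523 * (a ^ 4 * c * d ^ 3) +
      434163200 / 141776649 * (a ^ 4 * c ^ 2 * d ^ 2) +
      3069962240 / 3827969523 * (a ^ 4 * c ^ 3 * d) +
      572738560 / 3827969523 * (a ^ 4 * c ^ 4) := by
    subst hab hcd hp hs
    simp only [KPnum]
    ring
  refine KP_le p s _ _ (p ^ 2) (s ^ 2) 1 1 (by norm_num) (by norm_num) (by ring) (by ring) ?_
  rw [key]
  positivity

theorem cb2_p2up (p s a b c d : ℝ) (ha : 0 ≤ a) (hb : 0 ≤ b) (hc : 0 ≤ c) (hd : 0 ≤ d)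
    (hp : p = a - (7 / 12) / 2) (hab : b = 3 / 2 * (7 / 12) - a) (hs : s = c - (9 / 10) / 2)
    (hcd : d = 3 / 2 * (9 / 10) - c) :
    1 / 10 ≤ KP p s (p ^ 2) ((9 / 10) ^ 3 / (3 * (9 / 10) - 2 * s)) := by
  have hpL : 0 < 3 * (7 / 12) - 2 * p := by linarith
  have hsM : 0 < 3 * (9 / 10) - 2 * s := by linarith
  have key : KPnum p s (p ^ 2) ((9 / 10) ^ 3) 1 (3 * (9 / 10) - 2 * s) - 1 * (3 * (9 / 10) - 2 * s) / 10 = 423984851 / 16206750 * (b ^ 4 * d ^ 2) +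
      472819012 / 72930375 * (b ^ 4 * c * d) +
      46837858 / 72930375 * (b ^ 4 * c ^ 2) +
      276789628 / 2917215 * (a * b ^ 3 * d ^ 2) +
      14153708 / 540225 * (a * b ^ 3 * c * d) +
      54768328 / 14586075 * (a * b ^ 3 * c ^ 2) +
      111253756 / 972405 * (a ^ 2 * b ^ 2 * d ^ 2) +
      110000792 / 4862025 * (a ^ 2 * b ^ 2 * c * d) +
      7308512 / 1620675 * (a ^ 2 * b ^ 2 * c ^ 2) +
      1228240528 / 24310125 * (a ^ 3 * b * d ^ 2) +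
      687390064 / 72930375 * (a ^ 3 * b * c * d) +
      137539936 / 72930375 * (a ^ 3 * b * c ^ 2) +
      107535416 / 14586075 * (a ^ 4 * d ^ 2) +
      1517792 / 972405 * (a ^ 4 * c * d) +
      3579616 / 14586075 * (a ^ 4 * c ^ 2) := by
    subst hab hcd hp hs
    simp only [KPnum]
    ring
  refine KP_le p s _ _ (p ^ 2) ((9 / 10) ^ 3) 1 (3 * (9 / 10) - 2 * s) (by norm_num) (by linarith) (by ring) (by exact div_mul_cancel₀ _ (ne_of_gt hsM)) ?_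
  rw [key]
  positivity

theorem cb2_ups2 (p s a b c d : ℝ) (ha : 0 ≤ a) (hb : 0 ≤ b) (hc : 0 ≤ c) (hd : 0 ≤ d)
    (hp : p = a - (7 / 12) / 2) (hab : b = 3 / 2 * (7 / 12) - a) (hs : s = c - (9 / 10) / 2)
    (hcd : d = 3 / 2 * (9 / 10) - c) :
    1 / 10 ≤ KP p s ((7 / 12) ^ 3 / (3 * (7 / 12) - 2 * p)) (s ^ 2) := by
  have hpL : 0 < 3 * (7 / 12) - 2 * p := by linarith
  have hsM : 0 < 3 * (9 / 10) - 2 * s := by linarith
  have key : KPnum p s ((7 / 12) ^ 3) (s ^ 2) (3 * (7 / 12) - 2 * p) 1 - (3 * (7 / 12) - 2 * p) * 1 / 10 = 423984851 / 59521392 * (b ^ 2 * d ^ 4) +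
      3961807847 / 133923132 * (b ^ 2 * c * d ^ 3) +
      373374047 / 11160261 * (b ^ 2 * c ^ 2 * d ^ 2) +
      70996859 / 11160261 * (b ^ 2 * c ^ 3 * d) +
      23418929 / 33480783 * (b ^ 2 * c ^ 4) +
      527799833 / 133923132 * (a * b * d ^ 4) +
      169334707 / 7440174 * (a * b * c * d ^ 3) +
      120259571 / 11160261 * (a * b * c ^ 2 * d ^ 2) +
      80723306 / 33480783 * (a * b * c ^ 3 * d) +
      6476584 / 11160261 * (a * b * c ^ 4) +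
      67209635 / 133923132 * (a ^ 2 * d ^ 4) +
      106056190 / 33480783 * (a ^ 2 * c * d ^ 3) +
      1695950 / 1240029 * (a ^ 2 * c ^ 2 * d ^ 2) +
      11992040 / 33480783 * (a ^ 2 * c ^ 3 * d) +
      2237260 / 33480783 * (a ^ 2 * c ^ 4) := by
    subst hab hcd hp hs
    simp only [KPnum]
    ring
  refine KP_le p s _ _ ((7 / 12) ^ 3) (s ^ 2) (3 * (7 / 12) - 2 * p) 1 (by linarith) (by norm_num) (by exact div_mul_cancel₀ _ (ne_of_gt hpL)) (by ring) ?_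
  rw [key]
  positivity

theorem cb2_upup (p s a b c d : ℝ) (ha : 0 ≤ a) (hb : 0 ≤ b) (hc : 0 ≤ c) (hd : 0 ≤ d)
    (hp : p = a - (7 / 12) / 2) (hab : b = 3 / 2 * (7 / 12) - a) (hs : s = c - (9 / 10) / 2)
    (hcd : d = 3 / 2 * (9 / 10) - c) :
    1 / 10 ≤ KP p s ((7 / 12) ^ 3 / (3 * (7 / 12) - 2 * p)) ((9 / 10) ^ 3 / (3 * (9 / 10) - 2 * s)) := by
  have hpL : 0 < 3 * (7 / 12) - 2 * p := by linarith
  have hsM : 0 < 3 * (9 / 10) - 2 * s := by linarith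
  have key : KPnum p s ((7 / 12) ^ 3) ((9 / 10) ^ 3) (3 * (7 / 12) - 2 * p) (3 * (9 / 10) - 2 * s) - (3 * (7 / 12) - 2 * p) * (3 * (9 / 10) - 2 * s) / 10 = 423984851 / 9072000 * (b ^ 2 * d ^ 2) +
      118204753 / 10206000 * (b ^ 2 * c * d) +
      23418929 / 20412000 * (b ^ 2 * c ^ 2) +
      527799833 / 20412000 * (a * b * d ^ 2) +
      50076529 / 10206000 * (a * b * c * d) +
      809573 / 850500 * (a * b * c ^ 2) +
      13441927 / 4082400 * (a ^ 2 * d ^ 2) +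
      47431 / 68040 * (a ^ 2 * c * d) +
      111863 / 1020600 * (a ^ 2 * c ^ 2) := by
    subst hab hcd hp hs
    simp only [KPnum]
    ring
  refine KP_le p s _ _ ((7 / 12) ^ 3) ((9 / 10) ^ 3) (3 * (7 / 12) - 2 * p) (3 * (9 / 10) - 2 * s) (by linarith) (by linarith) (by exact div_mul_cancel₀ _ (ne_of_gt hpL)) (by exact div_mul_cancel₀ _ (ne_of_gt hsM)) ?_
  rw [key]
  positivity

theorem hK2 : ∀ p s x y : ℝ, -((7 / 12 : ℝ) / 2) ≤ p → p ≤ 7 / 12 → -((9 / 10 : ℝ) / 2) ≤ s → s ≤ 9 / 10 →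
    p ^ 2 ≤ x → x * (3 * (7 / 12) - 2 * p) ≤ (7 / 12) ^ 3 → s ^ 2 ≤ y →
    y * (3 * (9 / 10) - 2 * s) ≤ (9 / 10) ^ 3 → 1 / 10 ≤ KP p s x y := by
  intro p s x y h1 h2 h3 h4 h5 h6 h7 h8
  have hpL : 0 < 3 * (7 / 12) - 2 * p := by linarith
  have hsM : 0 < 3 * (9 / 10) - 2 * s := by linarith
  refine KP_corners p s x y (p ^ 2) ((7 / 12) ^ 3 / (3 * (7 / 12) - 2 * p)) (s ^ 2)
    ((9 / 10) ^ 3 / (3 * (9 / 10) - 2 * s)) _ h5 ((le_div_iff₀ hpL).2 h6) h7 ((le_div_iff₀ hsM).2 h8) ?_ ?_ ?_ ?_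
  · exact cb2_p2s2 p s (p + (7 / 12) / 2) ((7 / 12) - p) (s + (9 / 10) / 2) ((9 / 10) - s) (by linarith)
      (by linarith) (by linarith) (by linarith) (by ring) (by ring) (by ring) (by ring)
  · exact cb2_p2up p s (p + (7 / 12) / 2) ((7 / 12) - p) (s + (9 / 10) / 2) ((9 / 10) - s) (by linarith)
      (by linarith) (by linarith) (by linarith) (by ring) (by ring) (by ring) (by ring)
  · exact cb2_ups2 p s (p + (7 / 12) / 2) ((7 / 12) - p) (s + (9 / 10) / 2) ((9 / 10) - s) (by linarith)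
      (by linarith) (by linarith) (by linarith) (by ring) (by ring) (by ring) (by ring)
  · exact cb2_upup p s (p + (7 / 12) / 2) ((7 / 12) - p) (s + (9 / 10) / 2) ((9 / 10) - s) (by linarith)
      (by linarith) (by linarith) (by linarith) (by ring) (by ring) (by ring) (by ring)

theorem hD2 : ∀ p s : ℝ, -((7 / 12 : ℝ) / 2) ≤ p → p ≤ 7 / 12 → -((9 / 10 : ℝ) / 2) ≤ s → s ≤ 9 / 10 →
    (7 / 12 : ℝ) ^ 3 * (9 / 10) ^ 3 * (3 - 2 * p * s) ≤ 3 / 5 * ((3 * (7 / 12) - 2 * p) * (3 * (9 / 10) - 2 * s)) := by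
  intro p s h1 h2 h3 h4
  have k1 := mul_nonneg (sub_nonneg.2 h1) (sub_nonneg.2 h3)
  have k2 := mul_nonneg (sub_nonneg.2 h1) (sub_nonneg.2 h4)
  have k3 := mul_nonneg (sub_nonneg.2 h2) (sub_nonneg.2 h3)
  have k4 := mul_nonneg (sub_nonneg.2 h2) (sub_nonneg.2 h4)
  nlinarith

end Vale.Agent.Potts
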