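import Mathlib
import Vale.Agent.Potts.PwrCert

namespace Vale.Agent.Potts

open Finset

theorem pwr_gen (L M : ℝ) (hL : 0 < L) (hL1 : L < 1) (hM : 0 < M) (hM1 : M < 1)
    (hK : ∀ p s x y, -(L / 2) ≤ p → p ≤ L → -(M / 2) ≤ s → s ≤ M → p ^ 2 ≤ x →
      x * (3 * L - 2 * p) ≤ L ^ 3 → s ^ 2 ≤ y → y * (3 * M - 2 * s) ≤ M ^ 3 →
      1 / 10 ≤ KP p s x y)
    (hD : ∀ p s, -(L / 2) ≤ p → p ≤ L → -(M / 2) ≤ s → s ≤ M →
      L ^ 3 * M ^ 3 * (3 - 2 * p * s) ≤ 3 / 5 * ((3 * L - 2 * p) * (3 * M - 2 * s)))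
    (hk : 12 * ((L ^ 4 / 7) * (M ^ 4 / 7)) ≤ 1 / 25) : PWR L M := by
  intro a b ha hb
  obtain ⟨hP, ha⟩ := ha
  obtain ⟨hQ, hb⟩ := hb
  obtain ⟨P, hPd⟩ : ∃ P, P = pp a := ⟨_, rfl⟩
  obtain ⟨Q, hQd⟩ : ∃ Q, Q = pp b := ⟨_, rfl⟩
  rw [← hPd] at hP ha ⊢
  rw [← hQd] at hQ hb ⊢
  obtain ⟨a0, h0⟩ : ∃ a0, a 0 = P * a0 := ⟨a 0 / P, by field_simp⟩
  obtain ⟨a1, h1⟩ : ∃ a1, a 1 = P * a1 := ⟨a 1 / P, by field_simp⟩
  obtain ⟨b0, g0⟩ : ∃ b0, b 0 = Q * b0 := ⟨b 0 / Q, by field_simp⟩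
  obtain ⟨b1, g1⟩ : ∃ b1, b 1 = Q * b1 := ⟨b 1 / Q, by field_simp⟩
  have h2 : a 2 = P * (3 - a0 - a1) := by
    have : P = (a 0 + a 1 + a 2) / 3 := hPd
    linarith
  have g2 : b 2 = Q * (3 - b0 - b1) := by
    have : Q = (b 0 + b 1 + b 2) / 3 := hQd
    linarith
  have ca : ∀ t i, a i = P * t → 1 - L ≤ t := by
    intro t i h
    have := ha i
    rw [h] at this
    exact le_of_mul_le_mul_left (by linarith) hP
  have cb : ∀ t i, b i = Q * t → 1 - M ≤ t := by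
    intro t i h
    have := hb i
    rw [h] at this
    exact le_of_mul_le_mul_left (by linarith) hQ
  have ha0 := ca a0 0 h0
  have ha1 := ca a1 1 h1
  have ha2 := ca _ 2 h2
  have hb0 := cb b0 0 g0
  have hb1 := cb b1 1 g1
  have hb2 := cb _ 2 g2
  have pa0 : 0 < a0 := by linarith
  have pa1 : 0 < a1 := by linarith
  have pa2 : 0 < 3 - a0 - a1 := by linarith
  have pb0 : 0 < b0 := by linarith
  have pb1 : 0 < b1 := by linarith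
  have pb2 : 0 < 3 - b0 - b1 := by linarith
  have main := pwr_norm L M hL hL1 hM hM1 hK hD hk a0 a1 b0 b1 ha0 ha1 ha2 hb0 hb1 hb2 _ rfl
    (fun Z E => (a0 * a1 * (3 - a0 - a1) * (b0 * b1 * (3 - b0 - b1)) / Z ^ 2 + 2 * Z - E / Z) / 2)
    (fun _ _ => rfl)
  have fFa : Ff a = P * xx a0 a1 := by
    simp only [Ff, ← hPd, h0, h1, h2, xx]
    field_simp
  have fFb : Ff b = Q * xx b0 b1 := by
    simp only [Ff, ← hQd, g0, g1, g2, xx]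
    field_simp
  have fRa : Rr a = P * rr a0 a1 := by
    simp only [Rr, fFa, ← hPd, h0, h1, h2, rr]
    field_simp
  have fRb : Rr b = Q * rr b0 b1 := by
    simp only [Rr, fFb, ← hQd, g0, g1, g2, rr]
    field_simp
  have term : ∀ c0 c1 c2 : ℝ, 0 < c0 → 0 < c1 → 0 < c2 →
      c0 * c1 * c2 = b0 * b1 * (3 - b0 - b1) →
      Rr ![P * a0 * (Q * c0), P * a1 * (Q * c1), P * (3 - a0 - a1) * (Q * c2)] =
      P * Q * ((a0 * a1 * (3 - a0 - a1) * (b0 * b1 * (3 - b0 - b1)) /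
        (zz a0 a1 (3-a0-a1) c0 c1 c2) ^ 2 + 2 * (zz a0 a1 (3-a0-a1) c0 c1 c2) -
        (ee a0 a1 (3-a0-a1) c0 c1 c2) / (zz a0 a1 (3-a0-a1) c0 c1 c2)) / 2) := by
    intro c0 c1 c2 k0 k1 k2 hc
    have e : ![P * a0 * (Q * c0), P * a1 * (Q * c1), P * (3 - a0 - a1) * (Q * c2)] =
        ![(P * Q) * (a0 * c0), (P * Q) * (a1 * c1), (P * Q) * ((3 - a0 - a1) * c2)] := by
      congr 1
      · ring
      · congr 1
        · ring
        · congr 1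
          ring
    have hZ : 0 < (a0 * c0 + a1 * c1 + (3 - a0 - a1) * c2) / 3 := by positivity
    rw [e, Rr_scaled _ _ _ _ (mul_pos hP hQ) hZ]
    have e2 : a0 * c0 * (a1 * c1) * ((3 - a0 - a1) * c2) =
        a0 * a1 * (3 - a0 - a1) * (b0 * b1 * (3 - b0 - b1)) := by
      rw [← hc]; ring
    rw [e2]
    simp only [zz, ee]
  rw [sum_mul3, h0, h1, h2, g0, g1, g2, fFa, fFb, fRa, fRb,
    term b0 b1 (3-b0-b1) pb0 pb1 pb2 rfl,
    term b1 (3-b0-b1) b0 pb1 pb2 pb0 (by ring), term (3-b0-b1) b0 b1 pb2 pb0 pb1 (by ring),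
    term b1 b0 (3-b0-b1) pb1 pb0 pb2 (by ring), term (3-b0-b1) b1 b0 pb2 pb1 pb0 (by ring),
    term b0 (3-b0-b1) b1 pb0 pb2 pb1 (by ring)]
  have hPQ : 0 < P * Q := mul_pos hP hQ
  have m2 := mul_le_mul_of_nonneg_left main hPQ.le
  linarith

/-- PART D -/
theorem pwr1 : PWR (5/7) (5/7) :=
  pwr_gen (5/7) (5/7) (by norm_num) (by norm_num) (by norm_num) (by norm_num) hK1 hD1 (by norm_num)

theorem pwr2 : PWR (7/12) (9/10) :=
  pwr_gen (7/12) (9/10) (by norm_num) (by norm_num) (by norm_num) (by norm_num) hK2 hD2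
    (by norm_num)

end Vale.Agent.Potts
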