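import Mathlib
import Vale.Agent.Potts.Tree

namespace Vale.Agent.Potts
open Filter

/-- PART A (framework) -/
theorem partA2 (h1 : PW (5/7) (5/7) (1/100) (143/100) (57/50)) (h2 : PWR (5/7) (5/7))
    (lam : ℝ) (h0 : 0 ≤ lam) (hl : 2 * lam ^ 2 ≤ 1) :
    Tendsto (fun n => aSeq 3 2 lam n) atTop (nhds 0) := by
  sorry

theorem partA3 (h1 : PW (5/7) (5/7) (1/100) (143/100) (57/50)) (h2 : PWR (5/7) (5/7))
    (h3 : PW (7/12) (9/10) (1/100) (143/100) (57/50)) (h4 : PWR (7/12) (9/10))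
    (lam : ℝ) (h0 : 0 ≤ lam) (hl : 3 * lam ^ 2 ≤ 1) :
    Tendsto (fun n => aSeq 3 3 lam n) atTop (nhds 0) := by
  sorry

/-- PART B/C (mine): pointwise inequality for `Ff` -/
theorem pw1 : PW (5/7) (5/7) (1/100) (143/100) (57/50) := by sorry
theorem pw2 : PW (7/12) (9/10) (1/100) (143/100) (57/50) := by sorry
/-- PART D: pointwise inequality for `Rr` -/
theorem pwr1 : PWR (5/7) (5/7) := by sorry
theorem pwr2 : PWR (7/12) (9/10) := by sorry

end Vale.Agent.Potts
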