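import Mathlib
import Vale.Agent.Potts.All

namespace Vale.Agent.Potts
open Filter

/-- FRAMEWORK: all d >= 2 -/
theorem partAll (h1 : PWm (5/7) (1/10) 1 (3/2)) (h2 : PWq (5/7)) (h3 : PWj) (h4 : PWt)
    (d : ℕ) (hd : 2 ≤ d) (lam : ℝ) (h0 : 0 ≤ lam) (hl : d * lam ^ 2 ≤ 1) :
    Tendsto (fun n => aSeq 3 d lam n) atTop (nhds 0) := by
  sorry

theorem pwm : PWm (5/7) (1/10) 1 (3/2) := by sorry
theorem pwq : PWq (5/7) := by sorry
theorem pwj : PWj := by sorry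
theorem pwt : PWt := by sorry

end Vale.Agent.Potts
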